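import Mathlib

/-! Common subsequences of two words made of rows of tagged blocks. -/

set_option autoImplicit false

namespace Crest.Agent.R210

open List

variable {α : Type*} {n : ℕ}

/-- A row: the concatenation of `n` blocks. -/
def row (X : Fin n → List α) : List α := (List.finRange n).flatMap X

theorem length_flatMap_const {β : Type*} (l : List β) (f : β → List α) (ℓ : ℕ)
    (h : ∀ b ∈ l, (f b).length = ℓ) : (l.flatMap f).length = l.length * ℓ := by
  induction l with
  | nil => simp
  | cons b t ih =>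
    rw [flatMap_cons, length_append, h b (by simp), ih (fun c hc => h c (by simp [hc])),
      length_cons]
    ring

theorem row_length (X : Fin n → List α) (ℓ : ℕ) (h : ∀ j, (X j).length = ℓ) :
    (row X).length = n * ℓ := by
  rw [row, length_flatMap_const _ _ ℓ (fun j _ => h j), length_finRange]

theorem filter_flatMap_sublist (tag : α → ℕ) (X : Fin n → List α)
    (hX : ∀ j, ∀ a ∈ X j, tag a = j) (j : Fin n) (l : List (Fin n)) (hl : l.Nodup) :
    (l.flatMap X).filter (fun a => tag a = j) <+ X j := by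
  induction l with
  | nil => simp
  | cons i t ih =>
    rw [nodup_cons] at hl
    rw [flatMap_cons, filter_append]
    by_cases hij : i = j
    · subst hij
      have : (t.flatMap X).filter (fun a => tag a = i) = [] := by
        rw [filter_eq_nil_iff]
        intro a ha
        obtain ⟨k, hk, hak⟩ := mem_flatMap.1 ha
        have := hX k a hak
        simp only [decide_eq_true_eq, this]
        intro h
        exact hl.1 (Fin.ext h ▸ hk)
      rw [this, append_nil]
      exact filter_sublist
    · have : (X i).filter (fun a => tag a = j) = [] := by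
        rw [filter_eq_nil_iff]
        intro a ha
        have := hX i a ha
        simp only [decide_eq_true_eq, this]
        exact fun h => hij (Fin.ext h)
      rw [this, nil_append]
      exact ih hl.2

theorem filter_sub_row (tag : α → ℕ) (X : Fin n → List α)
    (hX : ∀ j, ∀ a ∈ X j, tag a = j) (j : Fin n) {s : List α} (hs : s <+ row X) :
    s.filter (fun a => tag a = j) <+ X j :=
  (hs.filter _).trans (filter_flatMap_sublist tag X hX j _ (nodup_finRange n))

theorem row_sorted (tag : α → ℕ) (X : Fin n → List α) (hX : ∀ j, ∀ a ∈ X j, tag a = j) :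
    (row X).Pairwise (fun a b => tag a ≤ tag b) := by
  rw [row, pairwise_flatMap]
  refine ⟨fun j _ => ?_, ?_⟩
  · exact pairwise_of_forall_mem_list fun a ha b hb => by rw [hX j a ha, hX j b hb]
  · refine (pairwise_lt_finRange n).imp ?_
    intro i j hij a ha b hb
    rw [hX i a ha, hX j b hb]
    exact hij.le

theorem length_eq_sum_filter (tag : α → ℕ) (s : List α) (hs : ∀ a ∈ s, tag a < n) :
    s.length = ∑ j : Fin n, (s.filter (fun a => tag a = j)).length := by
  induction s with
  | nil => simp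
  | cons a t ih =>
    have h1 : ∀ j : Fin n, ((a :: t).filter (fun a => tag a = j)).length =
        (t.filter (fun a => tag a = j)).length + if (⟨tag a, hs a (by simp)⟩ : Fin n) = j then 1 else 0 := by
      intro j
      by_cases h : tag a = j
      · rw [filter_cons_of_pos (by simpa using h), if_pos (Fin.ext h), length_cons]
      · rw [filter_cons_of_neg (by simpa using h), if_neg (fun h' => h (by rw [← h'])), add_zero]
    simp_rw [h1]
    rw [Finset.sum_add_distrib, ← ih (fun b hb => hs b (by simp [hb])), length_cons]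
    simp

theorem card_both_le_one (tag : α → ℕ) (a b : List α)
    (h : (a ++ b).Pairwise (fun x y => tag x ≤ tag y)) :
    (Finset.univ.filter fun j : Fin n => a.filter (fun x => tag x = j) ≠ [] ∧
      b.filter (fun x => tag x = j) ≠ []).card ≤ 1 := by
  rw [Finset.card_le_one]
  have key : ∀ i j : Fin n, a.filter (fun x => tag x = i) ≠ [] →
      b.filter (fun x => tag x = j) ≠ [] → (i : ℕ) ≤ j := by
    intro i j hi hj
    obtain ⟨x, hx⟩ := exists_mem_of_ne_nil _ hi
    obtain ⟨y, hy⟩ := exists_mem_of_ne_nil _ hj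
    rw [mem_filter, decide_eq_true_eq] at hx hy
    have := (pairwise_append.1 h).2.2 x hx.1 y hy.1
    rwa [hx.2, hy.2] at this
  intro i hi j hj
  rw [Finset.mem_filter] at hi hj
  exact Fin.ext (le_antisymm (key i j hi.2.1 hj.2.2) (key j i hj.2.1 hi.2.2))

theorem row_three (tag : α → ℕ) (X Y₁ Y₂ Y₃ : Fin n → List α) (ℓ z : ℕ) (g : ℝ) (hg : 0 ≤ g)
    (hX : ∀ j, ∀ a ∈ X j, tag a = j) (hY₁ : ∀ j, ∀ a ∈ Y₁ j, tag a = j)
    (hY₂ : ∀ j, ∀ a ∈ Y₂ j, tag a = j) (hY₃ : ∀ j, ∀ a ∈ Y₃ j, tag a = j)
    (hℓ : ∀ j, (X j).length = ℓ) (G₁ G₂ G₃ : Finset (Fin n))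
    (c₁ : G₁.card ≤ z) (c₂ : G₂.card ≤ z) (c₃ : G₃.card ≤ z)
    (h₁ : ∀ j ∉ G₁, ∀ s, s <+ X j → s <+ Y₁ j → (s.length : ℝ) ≤ ℓ - g)
    (h₂ : ∀ j ∉ G₂, ∀ s, s <+ X j → s <+ Y₂ j → (s.length : ℝ) ≤ ℓ - g)
    (h₃ : ∀ j ∉ G₃, ∀ s, s <+ X j → s <+ Y₃ j → (s.length : ℝ) ≤ ℓ - g)
    (s : List α) (hs : s <+ row X) (hs' : s <+ row Y₁ ++ row Y₂ ++ row Y₃) :
    (s.length : ℝ) ≤ n * ℓ - g * (n - (3 * z + 2)) := by
  classical
  obtain ⟨ab, c, rfl, hab, hc⟩ := sublist_append_iff.1 hs'
  obtain ⟨a, b, rfl, ha, hb⟩ := sublist_append_iff.1 hab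
  have hsort := (row_sorted tag X hX).sublist hs
  set I₁ := Finset.univ.filter fun j : Fin n => a.filter (fun x => tag x = j) ≠ [] ∧
      (b ++ c).filter (fun x => tag x = j) ≠ [] with hI₁
  set I₂ := Finset.univ.filter fun j : Fin n => (a ++ b).filter (fun x => tag x = j) ≠ [] ∧
      c.filter (fun x => tag x = j) ≠ [] with hI₂
  have k₁ : I₁.card ≤ 1 := card_both_le_one tag a (b ++ c) (by rwa [← append_assoc])
  have k₂ : I₂.card ≤ 1 := card_both_le_one tag (a ++ b) c hsort
  set Bad := G₁ ∪ G₂ ∪ G₃ ∪ I₁ ∪ I₂ with hBad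
  have kB : Bad.card ≤ 3 * z + 2 := by
    have e1 := Finset.card_union_le G₁ G₂
    have e2 := Finset.card_union_le (G₁ ∪ G₂) G₃
    have e3 := Finset.card_union_le (G₁ ∪ G₂ ∪ G₃) I₁
    have e4 := Finset.card_union_le (G₁ ∪ G₂ ∪ G₃ ∪ I₁) I₂
    rw [hBad]
    omega
  have htag : ∀ x ∈ a ++ b ++ c, tag x < n := by
    intro x hx
    obtain ⟨j, -, hj⟩ := mem_flatMap.1 (hs.subset hx)
    rw [hX j x hj]; exact j.2
  have hj : ∀ j : Fin n, (((a ++ b ++ c).filter (fun x => tag x = j)).length : ℝ) ≤
      ℓ - g + if j ∈ Bad then g else 0 := by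
    intro j
    have hsub := filter_sub_row tag X hX j hs
    split_ifs with hjB
    · have := hsub.length_le
      rw [hℓ] at this
      have : (((a ++ b ++ c).filter (fun x => tag x = j)).length : ℝ) ≤ ℓ := by exact_mod_cast this
      linarith
    · simp only [hBad, Finset.mem_union, not_or, hI₁, hI₂, Finset.mem_filter, Finset.mem_univ,
        true_and, not_and, ne_eq, not_not, filter_append, append_eq_nil_iff] at hjB
      obtain ⟨⟨⟨⟨n1, n2⟩, n3⟩, n4⟩, n5⟩ := hjB
      rw [add_zero]
      rw [filter_append, filter_append] at hsub ⊢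
      by_cases ea : a.filter (fun x => tag x = j) = []
      · by_cases eb : b.filter (fun x => tag x = j) = []
        · rw [ea, eb, nil_append, nil_append] at hsub ⊢
          exact h₃ j n3 _ hsub (filter_sub_row tag Y₃ hY₃ j hc)
        · have ec := n5 (fun _ => eb)
          rw [ea, ec, nil_append, append_nil] at hsub ⊢
          exact h₂ j n2 _ hsub (filter_sub_row tag Y₂ hY₂ j hb)
      · have n6 := n4 ea
        have eb : b.filter (fun x => tag x = j) = [] := by
          by_contra h; exact n6 (fun h' => absurd h' h)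
        have ec : c.filter (fun x => tag x = j) = [] := by
          by_contra h; exact n6 (fun _ => h)
        rw [eb, ec, append_nil, append_nil] at hsub ⊢
        exact h₁ j n1 _ hsub (filter_sub_row tag Y₁ hY₁ j ha)
  rw [length_eq_sum_filter tag _ htag, Nat.cast_sum]
  refine (Finset.sum_le_sum fun j _ => hj j).trans ?_
  rw [Finset.sum_add_distrib, Finset.sum_const, Finset.card_univ, Fintype.card_fin,
    Finset.sum_ite_mem, Finset.univ_inter, Finset.sum_const, nsmul_eq_mul, nsmul_eq_mul]
  have : (Bad.card : ℝ) ≤ 3 * z + 2 := by exact_mod_cast kB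
  nlinarith

theorem infix_three (Y : ℕ → List α) (R : ℕ) (hR : ∀ u, (Y u).length = R) (r u₀ : ℕ)
    (W : List α) (hW : W <:+: (List.range' u₀ r).flatMap Y) (hlen : W.length ≤ 2 * R) :
    ∃ u, u ≤ u₀ + r ∧ W <+ Y u ++ Y (u + 1) ++ Y (u + 2) := by
  induction r generalizing u₀ with
  | zero =>
    simp only [range'_zero, flatMap_nil, infix_nil] at hW
    exact ⟨u₀, by simp, by simp [hW]⟩
  | succ r ih =>
    obtain ⟨p, q, hpq⟩ := hW
    rw [range'_succ, flatMap_cons] at hpq
    by_cases hp : R ≤ p.length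
    · have h1 : Y u₀ <+: p := by
        refine prefix_of_prefix_length_le (l₃ := p ++ W ++ q) ?_ ?_ (by rw [hR]; exact hp)
        · rw [hpq]; exact prefix_append _ _
        · rw [append_assoc]; exact prefix_append _ _
      obtain ⟨p', rfl⟩ := h1
      rw [append_assoc, append_assoc, append_cancel_left_eq, ← append_assoc] at hpq
      obtain ⟨u, hu, h⟩ := ih (u₀ + 1) ⟨p', q, hpq⟩
      exact ⟨u, by omega, h⟩
    · refine ⟨u₀, by omega, ?_⟩
      have h1 : p ++ W <+: (List.range' u₀ (r + 1 + 2)).flatMap Y := by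
        have : List.range' u₀ (r + 1 + 2) = List.range' u₀ (r + 1) ++ List.range' (u₀ + (r + 1)) 2 := by
          rw [range'_append_1]
        rw [this, flatMap_append, range'_succ, flatMap_cons, ← hpq]
        exact (prefix_append _ _).trans (prefix_append _ _)
      have h2 : Y u₀ ++ Y (u₀ + 1) ++ Y (u₀ + 2) <+: (List.range' u₀ (r + 1 + 2)).flatMap Y := by
        rw [range'_succ, range'_succ, range'_succ, flatMap_cons, flatMap_cons, flatMap_cons,
          ← append_assoc, ← append_assoc]
        exact prefix_append _ _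
      have h3 := prefix_of_prefix_length_le h1 h2 (by simp only [length_append, hR]; omega)
      exact (sublist_append_right p W).trans h3.sublist

theorem block_bound (tag : α → ℕ) (X Y : ℕ → Fin n → List α) (T ℓ z : ℕ) (g : ℝ) (hg : 0 ≤ g)
    (hn : 6 * z + 4 ≤ n) (hℓ0 : 0 < ℓ)
    (hX : ∀ t j, ∀ a ∈ X t j, tag a = j) (hY : ∀ t j, ∀ a ∈ Y t j, tag a = j)
    (hℓ : ∀ t j, (X t j).length = ℓ) (hℓ' : ∀ t j, (Y t j).length = ℓ)
    (H : ∀ t < T, ∀ u ≤ T + 2, ∃ G : Finset (Fin n), G.card ≤ z ∧
      ∀ j ∉ G, ∀ s, s <+ X t j → s <+ Y u j → (s.length : ℝ) ≤ ℓ - g)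
    (s : List α) (hs : s <+ (List.range T).flatMap fun t => row (X t))
    (hs' : s <+ (List.range T).flatMap fun t => row (Y t)) :
    (s.length : ℝ) ≤ T * (n * ℓ) - T * (n * g) / 4 := by
  set R := n * ℓ with hRdef
  have hRpos : (0 : ℝ) < R := by
    have : 0 < R := Nat.mul_pos (by omega) hℓ0
    exact_mod_cast this
  have hRY : ∀ u, (row (Y u)).length = R := fun u => row_length _ _ (hℓ' u)
  set Γ : ℝ := n * g / 2 with hΓ
  have hΓ0 : 0 ≤ Γ := by positivity
  set big := (List.range T).flatMap fun t => row (Y t) with hbig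
  have one : ∀ t < T, ∀ W s : List α, W <:+: big → s <+ row (X t) → s <+ W →
      2 * R * (s.length : ℝ) + 2 * R * Γ ≤ 2 * R * R + Γ * W.length := by
    intro t ht W s hW h1 h2
    by_cases hl : W.length ≤ 2 * R
    · rw [hbig, range_eq_range'] at hW
      obtain ⟨u, hu, h3⟩ := infix_three (fun t => row (Y t)) R hRY T 0 W hW hl
      obtain ⟨G₁, c₁, h₁⟩ := H t ht u (by omega)
      obtain ⟨G₂, c₂, h₂⟩ := H t ht (u + 1) (by omega)
      obtain ⟨G₃, c₃, h₃⟩ := H t ht (u + 2) (by omega)
      have := row_three tag (X t) (Y u) (Y (u + 1)) (Y (u + 2)) ℓ z g hg (hX t) (hY _) (hY _)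
        (hY _) (hℓ t) G₁ G₂ G₃ c₁ c₂ c₃ h₁ h₂ h₃ s h1 (h2.trans h3)
      have hn' : (6 * z + 4 : ℝ) ≤ n := by exact_mod_cast hn
      have h4 : (s.length : ℝ) + Γ ≤ R := by
        rw [hRdef, hΓ]; push_cast; nlinarith
      have : (0 : ℝ) ≤ Γ * W.length := by positivity
      nlinarith
    · have h4 : (s.length : ℝ) ≤ R := by
        have := h1.length_le
        rw [row_length _ _ (hℓ t)] at this
        exact_mod_cast this
      have h5 : (2 * R : ℝ) ≤ W.length := by exact_mod_cast (not_le.1 hl).le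
      nlinarith
  have many : ∀ ts : List ℕ, (∀ t ∈ ts, t < T) → ∀ W s : List α, W <:+: big →
      s <+ (ts.flatMap fun t => row (X t)) → s <+ W →
      2 * R * (s.length : ℝ) + 2 * R * Γ * ts.length ≤ 2 * R * R * ts.length + Γ * W.length := by
    intro ts
    induction ts with
    | nil =>
      intro _ W s _ h1 _
      simp only [flatMap_nil, sublist_nil] at h1
      subst h1
      simp only [length_nil, Nat.cast_zero, mul_zero, add_zero, zero_add]
      positivity
    | cons t ts ih =>
      intro hts W s hW h1 h2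
      rw [flatMap_cons] at h1
      obtain ⟨s1, s2, rfl, h3, h4⟩ := sublist_append_iff.1 h1
      obtain ⟨W1, W2, rfl, h5, h6⟩ := append_sublist_iff.1 h2
      have a1 := one t (hts t (by simp)) W1 s1 ((prefix_append _ _).isInfix.trans hW) h3 h5
      have a2 := ih (fun u hu => hts u (by simp [hu])) W2 s2
        ((suffix_append _ _).isInfix.trans hW) h4 h6
      simp only [length_append, length_cons]
      push_cast
      linarith
  have fin := many (List.range T) (fun t ht => mem_range.1 ht) big s infix_rfl hs hs'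
  rw [hbig, length_flatMap_const _ _ R (fun u _ => hRY u), length_range] at fin
  push_cast at fin
  have e : (R : ℝ) = n * ℓ := by rw [hRdef]; push_cast; ring
  rw [← e]
  have : 2 * R * (s.length : ℝ) ≤ 2 * R * (T * R - T * (n * g) / 4) := by
    rw [hΓ] at fin; nlinarith
  exact le_of_mul_le_mul_left this (by positivity)

end Crest.Agent.R210
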