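import Mathlib

/-! Trigonometric and arithmetic lemmas for the character inequality. -/

set_option autoImplicit false

namespace Crest.Agent.R210

open Real Finset

/-- `e(θ) = exp(2πiθ)`. -/
noncomputable def ee (θ : ℝ) : ℂ := Complex.exp ((2 * π * θ : ℝ) * Complex.I)

theorem ee_re (θ : ℝ) : (ee θ).re = cos (2 * π * θ) := by
  rw [ee, Complex.exp_ofReal_mul_I_re]

theorem ee_add (a b : ℝ) : ee (a + b) = ee a * ee b := by
  rw [ee, ee, ee, ← Complex.exp_add]; congr 1; push_cast; ring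

theorem ee_zero : ee 0 = 1 := by simp [ee]

theorem ee_sum {ι : Type*} (s : Finset ι) (f : ι → ℝ) : ee (∑ j ∈ s, f j) = ∏ j ∈ s, ee (f j) := by
  classical
  induction s using Finset.induction_on with
  | empty => simp [ee_zero]
  | insert a s ha ih => rw [sum_insert ha, prod_insert ha, ee_add, ih]

theorem ee_int (m : ℤ) : ee m = 1 := by
  rw [ee, Complex.exp_eq_one_iff]
  exact ⟨m, by push_cast; ring⟩

theorem ee_pow (θ : ℝ) (m : ℕ) : ee θ ^ m = ee (m * θ) := by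
  rw [ee, ee, ← Complex.exp_nat_mul]; congr 1; push_cast; ring

theorem ee_eq {a b : ℝ} (h : ee a = ee b) : ∃ m : ℤ, a = b + m := by
  obtain ⟨m, hm⟩ := Complex.exp_eq_exp_iff_exists_int.1 h
  refine ⟨m, ?_⟩
  have h1 := congrArg Complex.im hm
  simp at h1
  have : (2 * π) * a = (2 * π) * (b + m) := by linarith
  exact mul_left_cancel₀ (by positivity) this

theorem lower_cos {ε : ℝ} (h : |ε| ≤ 1 / 2) : 8 * ε ^ 2 ≤ 1 - (ee ε).re := by
  rw [ee_re]
  have h1 : |2 * π * ε| ≤ π := by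
    rw [abs_mul, abs_of_pos (by positivity : (0 : ℝ) < 2 * π)]
    nlinarith [pi_pos]
  have h2 := cos_le_one_sub_mul_cos_sq h1
  have h3 : 2 / π ^ 2 * (2 * π * ε) ^ 2 = 8 * ε ^ 2 := by
    field_simp; ring
  linarith

theorem upper_cos (ε : ℝ) : 1 - (ee ε).re ≤ 24 * ε ^ 2 := by
  rw [ee_re]
  have h1 := one_sub_sq_div_two_le_cos (x := 2 * π * ε)
  have h2 : π ^ 2 ≤ 12 := by nlinarith [pi_lt_d2, pi_pos]
  have h3 : (2 * π * ε) ^ 2 / 2 = 2 * π ^ 2 * ε ^ 2 := by ring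
  nlinarith [sq_nonneg ε]

theorem one_sub_re_le_two (θ : ℝ) : 1 - (ee θ).re ≤ 2 := by
  rw [ee_re]; linarith [neg_one_le_cos (2 * π * θ)]

theorem exists_ee {Z : ℂ} (hZ : ‖Z‖ = 1) (q : ℕ) (hq : 0 < q) :
    ∃ (a : ℤ) (ε : ℝ), |ε| ≤ 1 / 2 ∧ Z = ee ((a + ε) / q) ∧ Z ^ q = ee ε := by
  obtain ⟨θ, hθ⟩ := (Complex.norm_eq_one_iff Z).1 hZ
  have hq' : (q : ℝ) ≠ 0 := by positivity
  set t : ℝ := q * (θ / (2 * π)) with ht
  have e1 : Z = ee (((round t : ℤ) + (t - round t)) / q) := by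
    have : 2 * π * ((((round t : ℤ) : ℝ) + (t - round t)) / q) = θ := by
      rw [add_sub_cancel, ht]
      field_simp
    rw [← hθ, ee, this]
  refine ⟨round t, t - round t, abs_sub_round t, e1, ?_⟩
  rw [e1, ee_pow, mul_div_cancel₀ _ hq', ee_add, ee_int, one_mul]

/-- An active leaf contributes at least `2 / Q²`. -/
theorem active_leaf (q Q : ℕ) (hq : 0 < q) (hQ : q ≤ Q) (a : ℤ) (ε : ℝ) (hε : |ε| ≤ 1 / 2)
    (ha : ¬ (q : ℤ) ∣ a) : 2 / (Q : ℝ) ^ 2 ≤ 1 - (ee ((a + ε) / q)).re := by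
  have hq' : (0 : ℝ) < q := by exact_mod_cast hq
  have hQ' : (q : ℝ) ≤ Q := by exact_mod_cast hQ
  set θ : ℝ := (a + ε) / q with hθ
  have e1 : ee θ = ee (θ - round θ) := by
    conv_lhs => rw [show θ = (round θ : ℤ) + (θ - round θ) by ring]
    rw [ee_add, ee_int, one_mul]
  have h1 := lower_cos (abs_sub_round θ)
  rw [e1]
  refine le_trans ?_ h1
  have h2 : (a - round θ * q : ℤ) ≠ 0 := by
    intro h
    exact ha ⟨round θ, by linarith⟩
  have h3 : (1 : ℝ) ≤ |((a - round θ * q : ℤ) : ℝ)| := by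
    rw [← Int.cast_abs]; exact_mod_cast Int.one_le_abs h2
  have h4 : (θ - round θ) * q = ((a - round θ * q : ℤ) : ℝ) + ε := by
    push_cast; rw [sub_mul, hθ, div_mul_cancel₀ _ hq'.ne']; ring
  have h5 : 1 / 2 ≤ |(θ - round θ) * q| := by
    rw [h4]
    have := abs_sub_abs_le_abs_add ((a - round θ * q : ℤ) : ℝ) ε
    linarith
  have h6 : (1 / 2) ^ 2 ≤ ((θ - round θ) * q) ^ 2 := by
    rw [← sq_abs ((θ - round θ) * q)]; gcongr
  have h7 : ((θ - round θ) * q) ^ 2 ≤ (θ - round θ) ^ 2 * Q ^ 2 := by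
    rw [mul_pow]; gcongr
  rw [div_le_iff₀ (by have := hq'.trans_le hQ'; positivity)]
  nlinarith

/-- An active node has at least `r` active children. -/
theorem active_card {n : ℕ} (p : ℕ) (q : Fin n → ℕ) (Q r : ℕ) (η : ℝ) (hp : 0 < p) (hpQ : p ≤ Q)
    (hq : ∀ j, 0 < q j) (hqQ : ∀ j, q j ≤ Q) (hco : ∀ j, Nat.Coprime p (q j))
    (hη : (n + 1) * η * (Q : ℝ) ^ r < 1) (a : ℤ) (ε : ℝ) (b : Fin n → ℤ) (δ : Fin n → ℝ)
    (hε : |ε| ≤ η) (hδ : ∀ j, |δ j| ≤ η) (m : ℤ)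
    (h : (a + ε) / p = ∑ j, (b j + δ j) / q j + m) (ha : ¬ (p : ℤ) ∣ a) :
    r ≤ (univ.filter fun j => ¬ (q j : ℤ) ∣ b j).card := by
  by_contra hr
  set A := univ.filter fun j => ¬ (q j : ℤ) ∣ b j with hA
  set P : ℕ := ∏ j ∈ A, q j with hP
  have hη0 : 0 ≤ η := (abs_nonneg _).trans hε
  have hdiv : ∀ j, ∃ w : ℤ, (P : ℤ) * b j = q j * w := by
    intro j
    by_cases hj : j ∈ A
    · have : q j ∣ P := dvd_prod_of_mem _ hj
      exact (Int.natCast_dvd_natCast.2 this).mul_right _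
    · have : (q j : ℤ) ∣ b j := by simpa [hA] using hj
      exact this.mul_left _
  choose w hw using hdiv
  have hp' : (0 : ℝ) < p := by exact_mod_cast hp
  have hq' : ∀ j, (0 : ℝ) < q j := fun j => by exact_mod_cast hq j
  have hPQ : (p : ℝ) * P ≤ (Q : ℝ) ^ r := by
    have h1 : P ≤ Q ^ A.card := prod_le_pow_card _ _ _ fun j _ => hqQ j
    have h2 : p * P ≤ Q ^ r := by
      calc p * P ≤ Q * Q ^ A.card := Nat.mul_le_mul hpQ h1
        _ = Q ^ (A.card + 1) := by ring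
        _ ≤ Q ^ r := Nat.pow_le_pow_right (by omega) (by omega)
    exact_mod_cast h2
  have key : (((P : ℤ) * a - p * (∑ j, w j + P * m) : ℤ) : ℝ) =
      p * P * (∑ j, δ j / q j - ε / p) := by
    have e1 : ∀ j, (P : ℝ) * ((b j + δ j) / q j) = w j + P * (δ j / q j) := by
      intro j
      have : (P : ℝ) * b j = q j * w j := by exact_mod_cast hw j
      have := hq' j
      field_simp
      linarith
    have e2 : (P : ℝ) * ((a + ε) / p) = ∑ j, (w j : ℝ) + P * ∑ j, δ j / q j + P * m := by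
      rw [h, mul_add, mul_sum, mul_sum, ← sum_add_distrib]
      simp_rw [e1]
    have e3 : (P : ℝ) * a = p * ((P : ℝ) * ((a + ε) / p)) - P * ε := by
      field_simp; ring
    push_cast
    rw [e3, e2]
    field_simp
    ring
  have hb : |∑ j, δ j / q j - ε / p| ≤ (n + 1) * η := by
    have h1 : |∑ j, δ j / q j| ≤ n * η := by
      refine (abs_sum_le_sum_abs _ _).trans ?_
      have : ∀ j ∈ (univ : Finset (Fin n)), |δ j / q j| ≤ η := by
        intro j _
        rw [abs_div, abs_of_pos (hq' j)]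
        have : (1 : ℝ) ≤ q j := by exact_mod_cast hq j
        exact (div_le_self (abs_nonneg _) this).trans (hδ j)
      simpa using sum_le_card_nsmul _ _ _ this
    have h2 : |ε / p| ≤ η := by
      rw [abs_div, abs_of_pos hp']
      have : (1 : ℝ) ≤ p := by exact_mod_cast hp
      exact (div_le_self (abs_nonneg _) this).trans hε
    have := abs_sub (∑ j, δ j / q j) (ε / p)
    linarith
  have hlt : |(((P : ℤ) * a - p * (∑ j, w j + P * m) : ℤ) : ℝ)| < 1 := by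
    rw [key, abs_mul, abs_of_nonneg (by positivity : (0 : ℝ) ≤ p * P)]
    calc (p : ℝ) * P * |∑ j, δ j / q j - ε / p| ≤ (Q : ℝ) ^ r * ((n + 1) * η) := by gcongr
      _ < 1 := by linarith
  have hz : (P : ℤ) * a - p * (∑ j, w j + P * m) = 0 := by
    rw [← Int.cast_abs] at hlt
    exact Int.abs_lt_one_iff.1 (by exact_mod_cast hlt)
  have hd : (p : ℤ) ∣ (P : ℤ) * a := ⟨_, sub_eq_zero.1 hz⟩
  have hcop : Nat.Coprime p P := Nat.Coprime.prod_right fun j _ => hco j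
  exact ha ((Nat.isCoprime_iff_coprime.2 hcop).dvd_of_dvd_mul_left hd)

/-- A small nonzero integer has few divisors among large pairwise coprime numbers. -/
theorem few_divisors {ι : Type*} [Fintype ι] (q : ι → ℕ) (P z B : ℕ) (hP : 1 ≤ P)
    (hq : ∀ j, P ≤ q j) (hco : Pairwise fun i j => Nat.Coprime (q i) (q j)) (hB : B < P ^ (z + 1))
    (δ : ℤ) (h0 : δ ≠ 0) (hδ : |δ| ≤ B) [DecidablePred fun j => (q j : ℤ) ∣ δ] :
    (univ.filter fun j => (q j : ℤ) ∣ δ).card ≤ z := by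
  by_contra hr
  set A := univ.filter fun j => (q j : ℤ) ∣ δ with hA
  have h1 : (∏ j ∈ A, (q j : ℤ)) ∣ δ :=
    Finset.prod_dvd_of_coprime (fun i _ j _ hij => Nat.isCoprime_iff_coprime.2 (hco hij))
      (fun j hj => by simpa [hA] using hj)
  have h2 : (∏ j ∈ A, (q j : ℤ)) ≤ |δ| := Int.le_of_dvd (abs_pos.2 h0) ((dvd_abs _ _).2 h1)
  have h3 : P ^ A.card ≤ ∏ j ∈ A, q j := pow_card_le_prod _ _ _ fun j _ => hq j
  have h4 : P ^ (z + 1) ≤ P ^ A.card := Nat.pow_le_pow_right hP (by omega)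
  have h5 : ((∏ j ∈ A, q j : ℕ) : ℤ) ≤ B := by push_cast; exact h2.trans hδ
  have h6 : ∏ j ∈ A, q j ≤ B := by exact_mod_cast h5
  omega

end Crest.Agent.R210
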