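import Mathlib
import Crest.Prelude.Def_EditDistance

/-! Basic facts on edit distance: connectivity, concatenation bounds, and a lower bound through
sliding windows. -/

set_option autoImplicit false

namespace Crest.Agent.R210

open Crest.GeometryTopology.EditDistance List

section general
variable {α : Type*}

theorem adj_insert (l r : List α) (a : α) : (editGraph α).Adj (l ++ r) (l ++ a :: r) := by
  rw [editGraph, SimpleGraph.fromRel_adj]
  refine ⟨fun h => ?_, Or.inl (Or.inl ⟨l, r, a, rfl, rfl⟩)⟩
  have := congrArg List.length h
  simp at this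

/-- Adjacent words share a prefix and a suffix, with middles of length at most one. -/
theorem adj_decomp {u v : List α} (h : (editGraph α).Adj u v) :
    ∃ l r m m' : List α, u = l ++ (m ++ r) ∧ v = l ++ (m' ++ r) ∧ m.length ≤ 1 ∧ m'.length ≤ 1 := by
  rw [editGraph, SimpleGraph.fromRel_adj] at h
  obtain ⟨-, (⟨l, r, a, h1, h2⟩ | ⟨l, r, a, b, -, h1, h2⟩) |
    (⟨l, r, a, h1, h2⟩ | ⟨l, r, a, b, -, h1, h2⟩)⟩ := h
  · exact ⟨l, r, [], [a], by simp [h1], by simp [h2], by simp, by simp⟩
  · exact ⟨l, r, [a], [b], by simp [h1], by simp [h2], by simp, by simp⟩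
  · exact ⟨l, r, [a], [], by simp [h2], by simp [h1], by simp, by simp⟩
  · exact ⟨l, r, [b], [a], by simp [h2], by simp [h1], by simp, by simp⟩

/-- Adding a fixed prefix and suffix is a graph homomorphism. -/
def ctxHom (p s : List α) : editGraph α →g editGraph α where
  toFun u := p ++ u ++ s
  map_rel' := by
    intro u v h
    rw [editGraph, SimpleGraph.fromRel_adj] at h ⊢
    obtain ⟨hne, h⟩ := h
    refine ⟨fun h' => hne (by simpa using h'), ?_⟩
    have key : ∀ u v : List α, IsInsertion u v ∨ IsSubstitution u v →
        IsInsertion (p ++ u ++ s) (p ++ v ++ s) ∨ IsSubstitution (p ++ u ++ s) (p ++ v ++ s) := by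
      rintro u v (⟨l, r, a, rfl, rfl⟩ | ⟨l, r, a, b, hab, rfl, rfl⟩)
      · exact Or.inl ⟨p ++ l, r ++ s, a, by simp, by simp⟩
      · exact Or.inr ⟨p ++ l, r ++ s, a, b, hab, by simp, by simp⟩
    exact h.imp (key u v) (key v u)

theorem exists_walk_nil (u : List α) : ∃ w : (editGraph α).Walk [] u, w.length = u.length := by
  induction u with
  | nil => exact ⟨SimpleGraph.Walk.nil, rfl⟩
  | cons a t ih =>
    obtain ⟨w, hw⟩ := ih
    have h : (editGraph α).Adj t (a :: t) := by simpa using adj_insert [] t a
    exact ⟨w.concat h, by simp [hw]⟩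

theorem edit_connected : (editGraph α).Connected := by
  refine { preconnected := fun u v => ?_, nonempty := ⟨[]⟩ }
  obtain ⟨w, -⟩ := exists_walk_nil u
  obtain ⟨w', -⟩ := exists_walk_nil v
  exact ⟨w.reverse.append w'⟩

theorem ed_triangle (u v w : List α) : editDist u w ≤ editDist u v + editDist v w :=
  edit_connected.dist_triangle

theorem ed_comm (u v : List α) : editDist u v = editDist v u := SimpleGraph.dist_comm

@[simp] theorem ed_self (u : List α) : editDist u u = 0 := SimpleGraph.dist_self

theorem ed_le_add (u v : List α) : editDist u v ≤ u.length + v.length := by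
  obtain ⟨w, hw⟩ := exists_walk_nil u
  obtain ⟨w', hw'⟩ := exists_walk_nil v
  have := SimpleGraph.dist_le (w.reverse.append w')
  simpa [hw, hw', editDist] using this

theorem ed_ctx (p s u v : List α) : editDist (p ++ u ++ s) (p ++ v ++ s) ≤ editDist u v := by
  obtain ⟨w, hw⟩ := (edit_connected (α := α)).exists_walk_length_eq_dist u v
  have := SimpleGraph.dist_le (w.map (ctxHom p s))
  rw [SimpleGraph.Walk.length_map, hw] at this
  exact this

theorem ed_append (u v u' v' : List α) :
    editDist (u ++ v) (u' ++ v') ≤ editDist u u' + editDist v v' := by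
  have h1 := ed_ctx [] v u u'
  have h2 := ed_ctx u' [] v v'
  simp only [nil_append, append_nil] at h1 h2
  exact (ed_triangle _ (u' ++ v) _).trans (add_le_add h1 h2)

theorem ed_flatMap {β : Type*} (l : List β) (f g : β → List α) :
    editDist (l.flatMap f) (l.flatMap g) ≤ (l.map fun b => editDist (f b) (g b)).sum := by
  induction l with
  | nil => simp
  | cons b t ih =>
    simp only [flatMap_cons, map_cons, sum_cons]
    exact (ed_append _ _ _ _).trans (Nat.add_le_add_left ih _)

/-- Shifting a sequence of rows by one costs at most two rows. -/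
theorem ed_shift (f : ℕ → List α) (T : ℕ) :
    editDist ((List.range T).flatMap f) ((List.range T).flatMap fun t => f (t + 1)) ≤
      (f 0).length + (f T).length := by
  have e1 : f 0 ++ ((List.range T).flatMap fun t => f (t + 1)) =
      (List.range T).flatMap f ++ f T := by
    have h1 : (List.range (T + 1)).flatMap f = (List.range T).flatMap f ++ f T := by
      rw [List.range_succ]; simp
    have h2 : (List.range (T + 1)).flatMap f =
        f 0 ++ ((List.range T).flatMap fun t => f (t + 1)) := by
      rw [List.range_succ_eq_map]; simp [List.flatMap_map]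
    rw [← h1, h2]
  set A := (List.range T).flatMap f
  set B := (List.range T).flatMap fun t => f (t + 1)
  have h1 : editDist A (A ++ f T) ≤ (f T).length := by
    have := ed_append A [] A (f T)
    have h' := ed_le_add ([] : List α) (f T)
    simp only [append_nil, ed_self, zero_add, length_nil] at this h'
    exact this.trans h'
  have h2 : editDist (f 0 ++ B) B ≤ (f 0).length := by
    have := ed_append (f 0) B [] B
    have h' := ed_le_add (f 0) ([] : List α)
    simp only [nil_append, ed_self, add_zero, length_nil] at this h'
    exact this.trans h'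
  have := ed_triangle A (A ++ f T) B
  rw [← e1] at this h1
  omega

/-- All windows of length (at most) `L`, one for every starting position. -/
def win (L : ℕ) : List α → List (List α)
  | [] => []
  | a :: t => (a :: t).take L :: win L t

theorem win_append_short (L : ℕ) (m r : List α) :
    ∃ B, win L (m ++ r) = B ++ win L r ∧ B.length = m.length := by
  induction m with
  | nil => exact ⟨[], by simp, rfl⟩
  | cons a t ih =>
    obtain ⟨B, hB, hl⟩ := ih
    exact ⟨((a :: t) ++ r).take L :: B, by simp [win, hB], by simp [hl]⟩

theorem win_append (L : ℕ) (l r r' : List α) :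
    ∃ A B B', win L (l ++ r) = A ++ (B ++ win L r) ∧ win L (l ++ r') = A ++ (B' ++ win L r') ∧
      B.length ≤ L := by
  induction l with
  | nil => exact ⟨[], [], [], by simp, by simp, by simp⟩
  | cons a t ih =>
    by_cases h : (a :: t).length ≤ L
    · obtain ⟨B, hB, hl⟩ := win_append_short L (a :: t) r
      obtain ⟨B', hB', -⟩ := win_append_short L (a :: t) r'
      exact ⟨[], B, B', by simpa using hB, by simpa using hB', by omega⟩
    · obtain ⟨A, B, B', h1, h2, h3⟩ := ih
      refine ⟨(a :: t).take L :: A, B, B', ?_, ?_, h3⟩
      · have : ((a :: t) ++ r).take L = (a :: t).take L :=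
          List.take_append_of_le_length (by omega)
        rw [cons_append] at this
        rw [cons_append, win, h1, this, cons_append]
      · have : ((a :: t) ++ r').take L = (a :: t).take L :=
          List.take_append_of_le_length (by omega)
        rw [cons_append] at this
        rw [cons_append, win, h2, this, cons_append]

theorem win_adj (L : ℕ) {u v : List α} (h : (editGraph α).Adj u v) (s : List (List α))
    (hs : s <+ win L u) : ∃ s', s' <+ s ∧ s' <+ win L v ∧ s.length ≤ s'.length + (L + 1) := by
  obtain ⟨l, r, m, m', rfl, rfl, hm, -⟩ := adj_decomp h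
  obtain ⟨A, B, B', h1, h2, h3⟩ := win_append L l (m ++ r) (m' ++ r)
  obtain ⟨C, hC, hCl⟩ := win_append_short L m r
  obtain ⟨C', hC', -⟩ := win_append_short L m' r
  rw [h1, hC, ← append_assoc B] at hs
  obtain ⟨s1, s2, rfl, hs1, hs2⟩ := sublist_append_iff.1 hs
  obtain ⟨s3, s4, rfl, hs3, hs4⟩ := sublist_append_iff.1 hs2
  refine ⟨s1 ++ s4, Sublist.append (Sublist.refl _) (sublist_append_right _ _), ?_, ?_⟩
  · rw [h2, hC']
    refine Sublist.append hs1 ?_
    exact sublist_append_of_sublist_right (sublist_append_of_sublist_right hs4)
  · have := hs3.length_le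
    simp only [length_append] at this ⊢
    omega

theorem win_walk (L : ℕ) {u v : List α} (w : (editGraph α).Walk u v) (s : List (List α))
    (hs : s <+ win L u) :
    ∃ s', s' <+ s ∧ s' <+ win L v ∧ s.length ≤ s'.length + w.length * (L + 1) := by
  induction w generalizing s with
  | nil => exact ⟨s, Sublist.refl _, hs, by simp⟩
  | cons h w ih =>
    obtain ⟨s1, h1, h2, h3⟩ := win_adj L h s hs
    obtain ⟨s2, h4, h5, h6⟩ := ih s1 h2
    refine ⟨s2, h4.trans h1, h5, ?_⟩
    rw [SimpleGraph.Walk.length_cons, Nat.succ_mul]
    omega

end general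

/-- Each bit followed by a zero. -/
def pad (σ : List Bool) : List Bool := σ.flatMap fun b => [b, false]

/-- The self-synchronising code word of a bit string. -/
def cw (σ : List Bool) : List Bool := true :: true :: false :: pad σ

theorem pad_length (σ : List Bool) : (pad σ).length = 2 * σ.length := by
  induction σ with
  | nil => rfl
  | cons b t ih => simp only [pad, flatMap_cons, length_append, length_cons] at ih ⊢; simp [ih]; ring

theorem cw_length (σ : List Bool) : (cw σ).length = 2 * σ.length + 3 := by
  simp [cw, pad_length]

theorem pad_injective : Function.Injective pad := by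
  intro σ
  induction σ with
  | nil =>
    intro τ h
    cases τ with
    | nil => rfl
    | cons b t => simp [pad] at h
  | cons a s ih =>
    intro τ h
    cases τ with
    | nil => simp [pad] at h
    | cons b t =>
      simp only [pad, flatMap_cons, cons_append, nil_append, cons.injEq, true_and] at h
      rw [h.1, ih (a₂ := t) h.2]

theorem cw_injective : Function.Injective cw := by
  intro σ τ h
  simp only [cw, cons.injEq, true_and] at h
  exact pad_injective h

/-- Starts with two ones. -/
def marked : List Bool → Bool
  | true :: true :: _ => true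
  | _ => false

theorem filter_win_pad (L : ℕ) (hL : 2 ≤ L) (σ r : List Bool) :
    (win L (pad σ ++ r)).filter marked = (win L r).filter marked := by
  obtain ⟨L, rfl⟩ : ∃ L', L = L' + 2 := ⟨L - 2, by omega⟩
  induction σ with
  | nil => simp [pad]
  | cons b t ih =>
    have : pad (b :: t) ++ r = b :: false :: (pad t ++ r) := by simp [pad]
    rw [this, win, win]
    have h1 : marked (List.take (L + 2) (b :: false :: (pad t ++ r))) = false := by
      cases b <;> simp [marked]
    have h2 : marked (List.take (L + 2) (false :: (pad t ++ r))) = false := by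
      simp [marked]
    rw [filter_cons_of_neg (by rw [h1]; simp), filter_cons_of_neg (by rw [h2]; simp), ih]

theorem filter_win_enc (ℓ : ℕ) (y : List (List Bool)) (hy : ∀ σ ∈ y, σ.length = ℓ) :
    (win (2 * ℓ + 3) (y.flatMap cw)).filter marked = y.map cw := by
  induction y with
  | nil => simp [win]
  | cons σ t ih =>
    have hσ : σ.length = ℓ := hy σ (by simp)
    have e : (σ :: t).flatMap cw = true :: (pad (true :: σ) ++ t.flatMap cw) := by
      simp [cw, pad]
    have e2 : List.take (2 * ℓ + 3) (true :: (pad (true :: σ) ++ t.flatMap cw)) = cw σ := by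
      rw [← e, flatMap_cons, List.take_left' (by rw [cw_length, hσ])]
    rw [e, win, e2, filter_cons_of_pos (by simp [cw, marked]), filter_win_pad _ (by omega),
      ih (fun τ hτ => hy τ (by simp [hτ])), map_cons]

/-- Lower bound for the edit distance of encoded words through common subsequences. -/
theorem ed_enc_lower (ℓ : ℕ) (x y : List (List Bool)) (hx : ∀ σ ∈ x, σ.length = ℓ)
    (hy : ∀ σ ∈ y, σ.length = ℓ) :
    ∃ s, s <+ x ∧ s <+ y ∧
      x.length ≤ s.length + editDist (x.flatMap cw) (y.flatMap cw) * (2 * ℓ + 4) := by
  obtain ⟨w, hw⟩ := (edit_connected (α := Bool)).exists_walk_length_eq_dist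
    (x.flatMap cw) (y.flatMap cw)
  have h0 : x.map cw <+ win (2 * ℓ + 3) (x.flatMap cw) := by
    rw [← filter_win_enc ℓ x hx]; exact filter_sublist
  obtain ⟨s', h1, h2, h3⟩ := win_walk (2 * ℓ + 3) w _ h0
  have h4 : s' <+ y.map cw := by
    rw [← filter_win_enc ℓ y hy]
    have : s'.filter marked = s' := by
      rw [filter_eq_self]
      intro a ha
      obtain ⟨σ, -, rfl⟩ := mem_map.1 (h1.subset ha)
      simp [cw, marked]
    rw [← this]
    exact h2.filter _
  obtain ⟨s1, hs1, rfl⟩ := sublist_map_iff.1 h1
  obtain ⟨s2, hs2, e⟩ := sublist_map_iff.1 h4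
  have : s1 = s2 := List.map_injective_iff.2 cw_injective e
  subst this
  refine ⟨s1, hs1, hs2, ?_⟩
  rw [hw] at h3
  simpa [editDist] using h3

end Crest.Agent.R210
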