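import Mathlib

/-! Transfer of linear inequalities from characters of a finite abelian group to
`ℓ¹`-valued functions (the `ℓ¹` distance is of negative type). -/

set_option autoImplicit false

namespace Crest.Agent.R210

open Finset MeasureTheory

variable {G : Type*} [AddCommGroup G] [Fintype G]

/-- `1 - Re χ(g)`. -/
noncomputable def phi (χ : AddChar G ℂ) (g : G) : ℝ := 1 - (χ g).re

theorem sq_sum_eq (h : G → ℝ) (g : G) :
    (Fintype.card G : ℝ) * ∑ v, (h v - h (v + g)) ^ 2 =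
      ∑ χ : AddChar G ℂ, 2 * Complex.normSq (∑ v, (h v : ℂ) * χ v) * phi χ g := by
  classical
  have key : ∀ g : G, ∑ χ : AddChar G ℂ, (Complex.normSq (∑ v, (h v : ℂ) * χ v) : ℂ) * χ g =
      (Fintype.card G : ℂ) * ∑ v, (h v : ℂ) * h (v + g) := by
    intro g
    have e1 : ∀ χ : AddChar G ℂ, (Complex.normSq (∑ v, (h v : ℂ) * χ v) : ℂ) * χ g =
        ∑ v, ∑ w, (h v : ℂ) * h w * χ (v + g - w) := by
      intro χ
      rw [← Complex.mul_conj, map_sum, Finset.sum_mul_sum, Finset.sum_mul]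
      refine Finset.sum_congr rfl fun v _ => ?_
      rw [Finset.sum_mul]
      refine Finset.sum_congr rfl fun w _ => ?_
      rw [map_mul, Complex.conj_ofReal, sub_eq_add_neg, AddChar.map_add_eq_mul,
        AddChar.map_add_eq_mul, AddChar.map_neg_eq_conj]
      ring
    simp_rw [e1]
    rw [Finset.sum_comm, Finset.mul_sum]
    refine Finset.sum_congr rfl fun v _ => ?_
    rw [Finset.sum_comm]
    simp_rw [← Finset.mul_sum, AddChar.sum_apply_eq_ite, sub_eq_zero]
    simp only [mul_ite, mul_zero, Finset.sum_ite_eq, Finset.mem_univ, if_true]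
    ring
  have keyre : ∀ g : G, ∑ χ : AddChar G ℂ, Complex.normSq (∑ v, (h v : ℂ) * χ v) * (χ g).re =
      (Fintype.card G : ℝ) * ∑ v, h v * h (v + g) := by
    intro g
    have := congrArg Complex.re (key g)
    rw [Complex.re_sum] at this
    simp only [Complex.re_ofReal_mul] at this
    rw [this]
    norm_cast
  have h0 := keyre 0
  have hg := keyre g
  simp only [AddChar.map_zero_eq_one, Complex.one_re, mul_one, add_zero] at h0
  have hshift : ∑ v, h (v + g) * h (v + g) = ∑ v, h v * h v :=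
    Fintype.sum_equiv (Equiv.addRight g) _ _ (fun _ => rfl)
  have e2 : ∑ v, (h v - h (v + g)) ^ 2 = 2 * ∑ v, h v * h v - 2 * ∑ v, h v * h (v + g) := by
    have : ∀ v, (h v - h (v + g)) ^ 2 = h v * h v + h (v + g) * h (v + g) - 2 * (h v * h (v + g)) :=
      fun v => by ring
    simp_rw [this, Finset.sum_sub_distrib, Finset.sum_add_distrib, hshift, ← Finset.mul_sum]
    ring
  have e3 : ∑ χ : AddChar G ℂ, 2 * Complex.normSq (∑ v, (h v : ℂ) * χ v) * phi χ g =
      2 * ∑ χ : AddChar G ℂ, Complex.normSq (∑ v, (h v : ℂ) * χ v) -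
        2 * ∑ χ : AddChar G ℂ, Complex.normSq (∑ v, (h v : ℂ) * χ v) * (χ g).re := by
    rw [Finset.mul_sum, Finset.mul_sum, ← Finset.sum_sub_distrib]
    refine Finset.sum_congr rfl fun χ _ => ?_
    rw [phi]; ring
  rw [e2, e3, h0, hg]
  ring

theorem transfer_sq (w : G → ℝ) (hw : ∀ χ : AddChar G ℂ, 0 ≤ ∑ g, w g * phi χ g) (h : G → ℝ) :
    0 ≤ ∑ g, w g * ∑ v, (h v - h (v + g)) ^ 2 := by
  have hc : (0 : ℝ) < Fintype.card G := by exact_mod_cast Fintype.card_pos
  have e : (Fintype.card G : ℝ) * ∑ g, w g * ∑ v, (h v - h (v + g)) ^ 2 =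
      ∑ χ : AddChar G ℂ, 2 * Complex.normSq (∑ v, (h v : ℂ) * χ v) * ∑ g, w g * phi χ g := by
    rw [Finset.mul_sum]
    simp_rw [mul_left_comm (Fintype.card G : ℝ), sq_sum_eq, Finset.mul_sum]
    rw [Finset.sum_comm]
    refine Finset.sum_congr rfl fun χ _ => Finset.sum_congr rfl fun g _ => ?_
    ring
  refine (mul_nonneg_iff_of_pos_left hc).1 ?_
  rw [e]
  exact Finset.sum_nonneg fun χ _ => mul_nonneg (mul_nonneg zero_le_two (Complex.normSq_nonneg _))
    (hw χ)

theorem step_sq_eq (a b t : ℝ) :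
    ((if t < a then (1 : ℝ) else 0) - (if t < b then (1 : ℝ) else 0)) ^ 2 =
      (Set.Ico (min a b) (max a b)).indicator (fun _ => (1 : ℝ)) t := by
  simp only [Set.indicator, Set.mem_Ico, min_le_iff, lt_max_iff]
  by_cases h1 : t < a <;> by_cases h2 : t < b <;> simp [h1, h2, not_lt.1, not_le.2] <;>
    first | linarith | (constructor <;> linarith) | skip

theorem step_integrable (a b : ℝ) : Integrable (fun t : ℝ =>
    ((if t < a then (1 : ℝ) else 0) - (if t < b then (1 : ℝ) else 0)) ^ 2) := by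
  simp_rw [step_sq_eq]
  exact (integrable_indicator_iff measurableSet_Ico).2 (integrableOn_const (by simp))

theorem step_integral (a b : ℝ) : ∫ t : ℝ,
    ((if t < a then (1 : ℝ) else 0) - (if t < b then (1 : ℝ) else 0)) ^ 2 = |a - b| := by
  simp_rw [step_sq_eq]
  rw [integral_indicator measurableSet_Ico]
  simp only [integral_const, MeasurableSet.univ, measureReal_restrict_apply, Set.univ_inter,
    Real.volume_real_Ico, smul_eq_mul, mul_one]
  rw [max_eq_left (sub_nonneg.2 min_le_max), max_sub_min_eq_abs, abs_sub_comm]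

theorem transfer_abs (w : G → ℝ) (hw : ∀ χ : AddChar G ℂ, 0 ≤ ∑ g, w g * phi χ g) (h : G → ℝ) :
    0 ≤ ∑ g, w g * ∑ v, |h v - h (v + g)| := by
  have e : ∑ g, w g * ∑ v, |h v - h (v + g)| = ∫ t : ℝ, ∑ g, w g * ∑ v,
      ((if t < h v then (1 : ℝ) else 0) - (if t < h (v + g) then (1 : ℝ) else 0)) ^ 2 := by
    rw [integral_finset_sum]
    · refine Finset.sum_congr rfl fun g _ => ?_
      rw [integral_const_mul, integral_finset_sum]
      · simp_rw [step_integral]
      · exact fun v _ => step_integrable _ _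
    · exact fun g _ => (integrable_finset_sum _ fun v _ => step_integrable _ _).const_mul _
  rw [e]
  exact integral_nonneg fun t => transfer_sq w hw fun v => if t < h v then (1 : ℝ) else 0

theorem transfer_l1 (w : G → ℝ) (hw : ∀ χ : AddChar G ℂ, 0 ≤ ∑ g, w g * phi χ g)
    (F : G → lp (fun _ : ℕ => ℝ) 1) :
    0 ≤ ∑ g, w g * ∑ v, ‖F v - F (v + g)‖ := by
  have hs : ∀ x : lp (fun _ : ℕ => ℝ) 1, HasSum (fun i => |x i|) ‖x‖ := by
    intro x
    have := lp.hasSum_norm (p := 1) (by simp) x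
    simpa using this
  have H : HasSum (fun i => ∑ g, w g * ∑ v, |F v i - F (v + g) i|)
      (∑ g, w g * ∑ v, ‖F v - F (v + g)‖) := by
    refine hasSum_sum fun g _ => HasSum.mul_left _ (hasSum_sum fun v _ => ?_)
    simpa using hs (F v - F (v + g))
  exact H.nonneg fun i => transfer_abs w hw fun v => F v i

theorem transfer (Λ : (G → ℝ) →ₗ[ℝ] ℝ) (hΛ : ∀ χ : AddChar G ℂ, 0 ≤ Λ (phi χ))
    (F : G → lp (fun _ : ℕ => ℝ) 1) :
    0 ≤ Λ (fun g => ∑ v, ‖F v - F (v + g)‖) := by
  classical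
  have e : ∀ ψ : G → ℝ, Λ ψ = ∑ g, Λ (fun j => if g = j then 1 else 0) * ψ g := by
    intro ψ
    rw [LinearMap.pi_apply_eq_sum_univ Λ ψ]
    exact Finset.sum_congr rfl fun g _ => by rw [smul_eq_mul, mul_comm]
  rw [e]
  exact transfer_l1 _ (fun χ => by rw [← e]; exact hΛ χ) F

end Crest.Agent.R210
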