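import Crest.Agent.R210.Tree

/-! The distortion bound for admissible parameters. -/

set_option autoImplicit false

namespace Crest.Agent.R210

open Crest.GeometryTopology.EditDistance List

variable {n : ℕ}

/-- The bottom level: one symbol, the residue modulo `q i`. -/
noncomputable def base (q : Fin (n + 1) → ℕ) (Q : ℕ) : Lvl n (∀ i, ZMod (q i)) where
  one := fun _ => 1
  x i v := [code Q (v i).val]
  N i := LinearMap.proj (q i • fun _ => 1)
  Lf := LinearMap.proj (fun _ => 1)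

theorem exists_level (q : Fin (n + 1) → ℕ) (T Q B P z r : ℕ) (η : ℝ) (hη0 : 0 ≤ η)
    (hη1 : η ≤ 1 / 2) (hn : n ≤ Q) (hT : 0 < T) (hz : 6 * z + 4 ≤ n) (hP : 1 ≤ P)
    (hq : ∀ i, P ≤ q i) (hqQ : ∀ i, q i ≤ Q)
    (hco : Pairwise fun i j => Nat.Coprime (q i) (q j)) (hB : B < P ^ (z + 1))
    (hη : (n + 1) * η * (Q : ℝ) ^ r < 1) (k : ℕ) :
    ∃ (A : Type) (_ : AddCommGroup A) (_ : Fintype A) (D : Lvl n A),
      Len T Q k D ∧ Far q T Q k B D ∧ Cost T Q k D ∧ Chr q Q k r η D := by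
  have hq0 : ∀ i, 0 < q i := fun i => hP.trans (hq i)
  induction k with
  | succ k ih =>
    obtain ⟨A, _, _, D, h1, h2, h3, h4⟩ := ih
    exact ⟨Fin n → A, inferInstance, inferInstance, D.step q T Q, h1.step hn,
      h2.step h1 hT hz hP hq hqQ hco hB, h3.step h1 hn, h4.step hη0 hq0 hqQ hco hη⟩
  | zero =>
    have : ∀ i, NeZero (q i) := fun i => ⟨(hq0 i).ne'⟩
    have hc : ∀ i (w : ZMod (q i)), (code Q w.val).length = Q + 1 :=
      fun i w => code_length ((ZMod.val_lt w).le.trans (hqQ i))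
    refine ⟨∀ i, ZMod (q i), inferInstance, inferInstance, base q Q, ⟨fun i v => by simp [base],
      fun i v σ hσ => ?_⟩, ?_, ?_, ⟨fun χ i => le_rfl, fun χ => phi_nonneg χ _, ?_⟩⟩
    · simp only [base, mem_singleton] at hσ
      rw [hσ, hc]; ring
    · intro i v δ hδ _ s h1 h2
      have : s = [] := by
        by_contra hs
        obtain ⟨σ, hσ⟩ := exists_mem_of_ne_nil _ hs
        have e1 := h1.subset hσ
        have e2 := h2.subset hσ
        simp only [base, mem_singleton] at e1 e2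
        have e3 := congrArg (fun τ => tagOf (τ ++ [])) (e1.symm.trans e2)
        simp only [tag_code] at e3
        have e4 := ZMod.val_injective _ e3
        rw [Pi.add_apply, Pi.smul_apply, zsmul_eq_mul, mul_one, left_eq_add] at e4
        exact hδ ((ZMod.intCast_zmod_eq_zero_iff_dvd _ _).1 e4)
      simp [this]
    · intro i enc L henc ψ C hC hψ
      constructor
      · have := hψ (q i • fun _ => 1) 0 (fun v => by simp [base])
        simp only [Nat.cast_zero, mul_zero, zero_mul] at this ⊢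
        exact mul_nonpos_of_nonneg_of_nonpos (by positivity) this
      · have := hψ (fun _ => 1) (2 * L) (fun v => ?_)
        · simpa [base] using this
        refine (ed_le_add _ _).trans ?_
        simp only [base, flatMap_cons, flatMap_nil, append_nil]
        have h1 := henc _ ((hc i (v i)).trans (by ring))
        have h2 := henc _ ((hc i ((v + fun _ => 1 : ∀ i, ZMod (q i)) i)).trans (by ring))
        omega
    · intro χ i a ε _ hχ hε ha
      rw [pow_zero, one_mul]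
      have := active_leaf (q i) Q (hq0 i) (hqQ i) a ε (hε.trans hη1) ha
      rw [← hχ] at this
      exact this

theorem poincare {A : Type} [AddCommGroup A] [Finite A] {q : Fin (n + 1) → ℕ} {Q k r : ℕ} {η : ℝ}
    {D : Lvl n A} (h : Chr q Q k r η D) (hη0 : 0 ≤ η) (i : Fin (n + 1)) (hq : 0 < q i)
    (hQ : 0 < Q) (hr : 0 < r) (W : ℝ) (hW : 3 ≤ W) (hW' : 2 ≤ W * (8 * η ^ 2))
    (χ : AddChar A ℂ) :
    phi χ D.one ≤ W * D.N i (phi χ) + (Q : ℝ) ^ 2 / (r : ℝ) ^ k * D.Lf (phi χ) := by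
  have hN : 0 ≤ D.N i (phi χ) := (phi_nonneg χ _).trans (h.pos χ i)
  have hL := h.posL χ
  have hΛ : 0 ≤ (Q : ℝ) ^ 2 / (r : ℝ) ^ k * D.Lf (phi χ) := by positivity
  obtain ⟨a, ε, h1, h2, h3⟩ := small_angle χ D.one (q i) hq
  have two : phi χ D.one ≤ 2 := by rw [phi, h2]; exact one_sub_re_le_two _
  have h4 := h3.trans (h.pos χ i)
  by_cases hs : D.N i (phi χ) ≤ 8 * η ^ 2
  · have hε : |ε| ≤ η := abs_le.2 (abs_le_of_sq_le_sq' (by linarith) hη0)
    by_cases ha : (q i : ℤ) ∣ a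
    · obtain ⟨m, rfl⟩ := ha
      have hq' : (1 : ℝ) ≤ q i := by exact_mod_cast hq
      have e : (((q i : ℤ) * m : ℤ) + ε) / (q i : ℝ) = (m : ℤ) + ε / q i := by
        push_cast; field_simp
      have h5 : phi χ D.one ≤ 24 * (ε / q i) ^ 2 := by
        rw [phi, h2, e, ee_add, ee_int, one_mul]; exact upper_cos _
      have h6 : (ε / q i) ^ 2 ≤ ε ^ 2 := by
        rw [div_pow]; exact div_le_self (sq_nonneg _) (one_le_pow₀ hq')
      nlinarith
    · have h5 := h.act χ i a ε hs h2 hε ha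
      have h6 : (Q : ℝ) ^ 2 / (r : ℝ) ^ k * ((r : ℝ) ^ k * (2 / (Q : ℝ) ^ 2)) = 2 := by
        field_simp
      have h7 : (Q : ℝ) ^ 2 / (r : ℝ) ^ k * ((r : ℝ) ^ k * (2 / (Q : ℝ) ^ 2)) ≤
          (Q : ℝ) ^ 2 / (r : ℝ) ^ k * D.Lf (phi χ) := by gcongr
      have : 0 ≤ W * D.N i (phi χ) := mul_nonneg (by linarith) hN
      linarith
  · have : W * (8 * η ^ 2) ≤ W * D.N i (phi χ) :=
      mul_le_mul_of_nonneg_left (not_le.1 hs).le (by linarith)
    linarith

theorem main_bound (q : Fin (n + 1) → ℕ) (T Q B P z r k L : ℕ) (η W : ℝ) (hη0 : 0 ≤ η)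
    (hη1 : η ≤ 1 / 2) (hn : n ≤ Q) (hT : 0 < T) (hz : 6 * z + 4 ≤ n) (hP : 2 ≤ P)
    (hq : ∀ i, P ≤ q i) (hqQ : ∀ i, q i ≤ Q)
    (hco : Pairwise fun i j => Nat.Coprime (q i) (q j)) (hB : B < P ^ (z + 1))
    (hη : (n + 1) * η * (Q : ℝ) ^ r < 1) (hr : 0 < r) (hW : 3 ≤ W) (hW' : 2 ≤ W * (8 * η ^ 2))
    (hB' : 1 + k * (Q * (T + 2)) ≤ B) (hL : L = 2 * ((k + 1) * (Q + 1)) + 3)
    (hWT : W * k * (r : ℝ) ^ k ≤ T * (Q : ℝ) ^ 2)
    (f : List Bool → lp (fun _ : ℕ => ℝ) 1) (s D : ℝ) (hs : 0 < s)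
    (hf : ∀ x y : List Bool, x.length = (n * T) ^ k * L → y.length = (n * T) ^ k * L → x ≠ y →
      s * (editDist x y : ℝ) ≤ ‖f x - f y‖ ∧ ‖f x - f y‖ ≤ D * s * (editDist x y : ℝ)) :
    (r : ℝ) ^ k ≤ D * (4 ^ k * (4 * L * (L + 1) * (Q : ℝ) ^ 2)) := by
  obtain ⟨A, _, _, E, h1, h2, h3, h4⟩ := exists_level q T Q B P z r η hη0 hη1 hn hT hz (by omega)
    hq hqQ hco hB hη k
  have hQ : 0 < Q := by have := hq 0; have := hqQ 0; omega
  set ℓ : ℕ := (n * T) ^ k with hℓ
  have hℓ0 : (0 : ℝ) < ℓ := by exact_mod_cast pow_pos (Nat.mul_pos (by omega) hT) k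
  set X : A → List Bool := fun v => (E.x 0 v).flatMap cw with hX
  have hXl : ∀ v, (X v).length = ℓ * L := fun v => by
    rw [hX, length_flatMap_const _ _ L (fun σ hσ => by rw [cw_length, h1.slen _ _ σ hσ, hL]), h1.len]
  have low : ∀ v, (ℓ : ℝ) / 4 ^ k ≤ editDist (X v) (X (v + E.one)) * (L + 1) := by
    intro v
    obtain ⟨s, hs1, hs2, hs3⟩ := ed_enc_lower _ _ _ (h1.slen 0 v) (h1.slen 0 (v + E.one))
    have hd : ¬ (q 0 : ℤ) ∣ 1 := by
      intro hd
      have := Int.le_of_dvd one_pos hd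
      have := hq 0
      omega
    have h5 := h2 0 v 1 hd (by exact_mod_cast hB') s hs1 (by rwa [one_smul])
    rw [h1.len, show 2 * ((k + 1) * (Q + 1)) + 4 = L + 1 by omega] at hs3
    have h6 : (ℓ : ℝ) ≤ s.length + editDist (X v) (X (v + E.one)) * (L + 1) := by
      exact_mod_cast hs3
    linarith
  have edpos : ∀ v, (0 : ℝ) < editDist (X v) (X (v + E.one)) := by
    intro v
    have h5 : (0 : ℝ) < ℓ / 4 ^ k := by positivity
    exact (mul_pos_iff_of_pos_right (by positivity)).1 (h5.trans_le (low v))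
  have ne : ∀ v, X v ≠ X (v + E.one) := by
    intro v h
    have := edpos v
    rw [← h, ed_self] at this
    simp at this
  have hD : 0 ≤ D := by
    obtain ⟨a, b⟩ := hf _ _ (hXl 0) (hXl (0 + E.one)) (ne 0)
    have := edpos 0
    by_contra hD
    have h5 : D * s * (editDist (X 0) (X (0 + E.one)) : ℝ) < 0 :=
      mul_neg_of_neg_of_pos (mul_neg_of_neg_of_pos (not_le.1 hD) hs) this
    have := norm_nonneg (f (X 0) - f (X (0 + E.one)))
    linarith
  set ψ : A → ℝ := fun g => ∑ v, ‖f (X v) - f (X (v + g))‖ with hψ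
  set c : ℝ := (Fintype.card A : ℝ) with hc
  have hc0 : 0 < c := by rw [hc]; exact_mod_cast Fintype.card_pos
  have lowψ : c * (s * (ℓ / 4 ^ k / (L + 1))) ≤ ψ E.one := by
    have := Finset.card_nsmul_le_sum Finset.univ (fun v => ‖f (X v) - f (X (v + E.one))‖)
      (s * (ℓ / 4 ^ k / (L + 1))) (fun v _ => by
        refine le_trans ?_ (hf _ _ (hXl v) (hXl _) (ne v)).1
        gcongr
        rw [div_le_iff₀ (by positivity)]
        exact low v)
    rwa [nsmul_eq_mul, Finset.card_univ] at this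
  obtain ⟨c1, c2⟩ := h3 0 cw L (fun σ hσ => by rw [cw_length, hσ, hL]) ψ (c * (D * s))
    (by positivity) (fun g e he => by
      have := Finset.sum_le_card_nsmul Finset.univ (fun v => ‖f (X v) - f (X (v + g))‖)
        (D * s * e) (fun v _ => by
          by_cases hv : X v = X (v + g)
          · rw [← hv, sub_self, norm_zero]; positivity
          · refine (hf _ _ (hXl v) (hXl _) hv).2.trans ?_
            gcongr
            exact_mod_cast he v)
      rwa [nsmul_eq_mul, Finset.card_univ, ← mul_assoc, ← mul_assoc, mul_assoc _ D s] at this)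
  have tr := transfer (W • E.N 0 + ((Q : ℝ) ^ 2 / (r : ℝ) ^ k) • E.Lf - LinearMap.proj E.one)
    (fun χ => by
      have := poincare h4 hη0 0 (by have := hq 0; omega) hQ hr W hW hW' χ
      simp only [LinearMap.sub_apply, LinearMap.add_apply, LinearMap.smul_apply, smul_eq_mul,
        LinearMap.proj_apply]
      linarith) (fun v => f (X v))
  simp only [LinearMap.sub_apply, LinearMap.add_apply, LinearMap.smul_apply, smul_eq_mul,
    LinearMap.proj_apply] at tr
  change 0 ≤ W * E.N 0 ψ + (Q : ℝ) ^ 2 / (r : ℝ) ^ k * E.Lf ψ - ψ E.one at tr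
  have eℓ : ((n : ℝ) * T) ^ k = ℓ := by rw [hℓ]; push_cast; ring
  rw [eℓ] at c1 c2
  set Λ : ℝ := (Q : ℝ) ^ 2 / (r : ℝ) ^ k with hΛ
  have hr' : (0 : ℝ) < (r : ℝ) ^ k := by positivity
  have hT' : (0 : ℝ) < T := by exact_mod_cast hT
  set Y : ℝ := c * (D * s) * (2 * L * ℓ) with hY
  have hY0 : 0 ≤ Y := by positivity
  have hWk : W * k ≤ T * Λ := by
    rw [hΛ, ← mul_div_assoc, le_div_iff₀ hr']; exact hWT
  have a1 : W * E.N 0 ψ ≤ Λ * Y := by
    refine le_of_mul_le_mul_left ?_ hT'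
    calc T * (W * E.N 0 ψ) = W * (T * E.N 0 ψ) := by ring
      _ ≤ W * (c * (D * s) * k * (2 * L * ℓ)) := mul_le_mul_of_nonneg_left c1 (by linarith)
      _ = (W * k) * Y := by rw [hY]; ring
      _ ≤ (T * Λ) * Y := by gcongr
      _ = T * (Λ * Y) := by ring
  have a2 : Λ * E.Lf ψ ≤ Λ * Y := mul_le_mul_of_nonneg_left c2 (by positivity)
  have a3 : c * (s * (ℓ / 4 ^ k / (L + 1))) ≤ 2 * (Λ * Y) := by linarith
  have a4 : c * (s * (ℓ / 4 ^ k / (L + 1))) = (c * s * ℓ / (4 ^ k * (L + 1) * r ^ k)) * r ^ k := by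
    field_simp
  have a5 : 2 * (Λ * Y) = (c * s * ℓ / (4 ^ k * (L + 1) * r ^ k)) *
      (D * (4 ^ k * (4 * L * (L + 1) * (Q : ℝ) ^ 2))) := by
    rw [hΛ, hY]; field_simp; ring
  rw [a4, a5] at a3
  exact le_of_mul_le_mul_left a3 (by positivity)

end Crest.Agent.R210
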