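import Crest.Agent.R210.Main

/-! Choice of the parameters. -/

set_option autoImplicit false

namespace Crest.Agent.R210

open Crest.GeometryTopology.EditDistance

theorem two_pow_le_fact (n : ℕ) : 2 ^ n ≤ (n + 1).factorial := by
  induction n with
  | zero => simp
  | succ n ih => rw [Nat.factorial_succ, pow_succ']; exact Nat.mul_le_mul (by omega) ih

theorem param_bound (r : ℕ) (hr : 300 ≤ r) : ∃ N : ℕ, N ≤ r ^ (76 * r ^ 8) ∧
    ∀ (f : List Bool → lp (fun _ : ℕ => ℝ) 1) (s D : ℝ), 0 < s →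
      (∀ x y : List Bool, x.length = N → y.length = N → x ≠ y →
        s * (editDist x y : ℝ) ≤ ‖f x - f y‖ ∧ ‖f x - f y‖ ≤ D * s * (editDist x y : ℝ)) →
      0 ≤ D ∧ (r : ℝ) ^ (r ^ 4) ≤ D ^ 4 := by
  obtain ⟨n, hn⟩ : ∃ n, n = 8 * r ^ 3 := ⟨_, rfl⟩
  obtain ⟨k, hk⟩ : ∃ k, k = r ^ 4 := ⟨_, rfl⟩
  obtain ⟨F, hF⟩ : ∃ F, F = (n + 1).factorial := ⟨_, rfl⟩
  obtain ⟨Q, hQ⟩ : ∃ Q, Q = (n + 2).factorial := ⟨_, rfl⟩
  obtain ⟨W, hW⟩ : ∃ W, W = (n + 2) ^ 2 * Q ^ (2 * r) := ⟨_, rfl⟩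
  obtain ⟨T, hT⟩ : ∃ T, T = W * k * r ^ k := ⟨_, rfl⟩
  obtain ⟨L, hL⟩ : ∃ L, L = 2 * ((k + 1) * (Q + 1)) + 3 := ⟨_, rfl⟩
  have r0 : 0 < r := by omega
  have r1 : 1 ≤ r := r0
  have r3 : 300 ≤ r ^ 3 := hr.trans (Nat.le_self_pow (by norm_num) r)
  have r4 : 300 * r ^ 3 ≤ r ^ 4 := by rw [pow_succ' r 3]; exact Nat.mul_le_mul_right _ hr
  have r8 : r ^ 4 ≤ r ^ 8 := Nat.pow_le_pow_right r0 (by norm_num)
  have hQF : Q = (n + 2) * F := by rw [hQ, hF, Nat.factorial_succ]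
  have F0 : 0 < F := hF ▸ Nat.factorial_pos _
  have Q0 : 0 < Q := hQ ▸ Nat.factorial_pos _
  have k0 : 0 < k := by omega
  have W0 : 0 < W := by rw [hW]; positivity
  have T0 : 0 < T := by rw [hT]; positivity
  have b1 : n + 2 ≤ r ^ 4 := by omega
  have bQ : Q ≤ r ^ (36 * r ^ 3) := by
    calc Q ≤ (n + 2) ^ (n + 2) := hQ ▸ Nat.factorial_le_pow _
      _ ≤ (r ^ 4) ^ (n + 2) := Nat.pow_le_pow_left b1 _
      _ = r ^ (4 * (n + 2)) := by rw [← pow_mul]
      _ ≤ _ := Nat.pow_le_pow_right r0 (by omega)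
  have bT : T ≤ r ^ (74 * r ^ 4) := by
    calc T = (n + 2) ^ 2 * Q ^ (2 * r) * k * r ^ k := by rw [hT, hW]
      _ ≤ (r ^ 4) ^ 2 * (r ^ (36 * r ^ 3)) ^ (2 * r) * r ^ 4 * r ^ (r ^ 4) := by
        rw [hk]; gcongr
      _ = r ^ (73 * r ^ 4 + 12) := by
        rw [← pow_mul, ← pow_mul, ← pow_add, ← pow_add, ← pow_add]; congr 1; ring
      _ ≤ _ := Nat.pow_le_pow_right r0 (by omega)
  have bB : 1 + k * (Q * (T + 2)) ≤ r ^ (76 * r ^ 4) := by
    have h1 : 0 < k * (Q * T) := by positivity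
    calc 1 + k * (Q * (T + 2)) ≤ k * (Q * T) + k * (Q * (T + 2 * T)) := by gcongr <;> omega
      _ = 4 * (k * (Q * T)) := by ring
      _ ≤ r ^ 1 * (r ^ 4 * (r ^ (36 * r ^ 3) * r ^ (74 * r ^ 4))) := by
        rw [hk]; gcongr; rw [pow_one]; omega
      _ = r ^ (1 + (4 + (36 * r ^ 3 + 74 * r ^ 4))) := by simp only [← pow_add]
      _ ≤ _ := Nat.pow_le_pow_right r0 (by omega)
  have bB2 : r ^ (76 * r ^ 4) < (2 ^ n) ^ (r ^ 3 - 1 + 1) := by
    calc r ^ (76 * r ^ 4) < (2 ^ r) ^ (76 * r ^ 4) :=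
          Nat.pow_lt_pow_left Nat.lt_two_pow_self (by omega)
      _ = 2 ^ (76 * r ^ 5) := by rw [← pow_mul]; congr 1; ring
      _ ≤ 2 ^ (8 * r * r ^ 5) := Nat.pow_le_pow_right (by norm_num)
          (Nat.mul_le_mul_right _ (by omega))
      _ = _ := by rw [Nat.sub_add_cancel (by omega), ← pow_mul, hn]; congr 1; ring
  have bL : L ≤ r ^ (37 * r ^ 3) := by
    have h1 : 0 < k * Q := by positivity
    calc L ≤ 2 * ((k + k) * (Q + Q)) + 3 * (k * Q) := by rw [hL]; gcongr <;> omega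
      _ = 11 * (k * Q) := by ring
      _ ≤ r ^ 1 * (r ^ 4 * r ^ (36 * r ^ 3)) := by
        rw [hk]; gcongr; rw [pow_one]; omega
      _ = r ^ (1 + (4 + 36 * r ^ 3)) := by simp only [← pow_add]
      _ ≤ _ := Nat.pow_le_pow_right r0 (by omega)
  have bN : (n * T) ^ k * L ≤ r ^ (76 * r ^ 8) := by
    calc (n * T) ^ k * L ≤ (r ^ (r ^ 4) * r ^ (74 * r ^ 4)) ^ (r ^ 4) * r ^ (37 * r ^ 3) := by
          rw [hk]; gcongr
          exact (by omega : n ≤ r ^ 4).trans (Nat.pow_le_pow_right r0 (by omega))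
      _ = r ^ (75 * r ^ 8 + 37 * r ^ 3) := by
          rw [← pow_add, ← pow_mul, ← pow_add]; congr 1; ring
      _ ≤ _ := Nat.pow_le_pow_right r0 (by omega)
  have bD : (4 ^ k * (4 * L * (L + 1) * Q ^ 2)) ^ 4 ≤ r ^ (3 * k) := by
    have L0 : 0 < L := by omega
    have h1 : 4 * L * (L + 1) * Q ^ 2 ≤ r ^ (147 * r ^ 3) := by
      calc 4 * L * (L + 1) * Q ^ 2 ≤ 4 * L * (L + L) * Q ^ 2 := by gcongr; omega
        _ = 8 * (L ^ 2 * Q ^ 2) := by ring
        _ ≤ r ^ 1 * ((r ^ (37 * r ^ 3)) ^ 2 * (r ^ (36 * r ^ 3)) ^ 2) := by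
          gcongr; rw [pow_one]; omega
        _ = r ^ (1 + 146 * r ^ 3) := by
          rw [← pow_mul, ← pow_mul, ← pow_add, ← pow_add]; congr 1; ring
        _ ≤ _ := Nat.pow_le_pow_right r0 (by omega)
    calc (4 ^ k * (4 * L * (L + 1) * Q ^ 2)) ^ 4 = 256 ^ k * (4 * L * (L + 1) * Q ^ 2) ^ 4 := by
          rw [mul_pow, ← pow_mul, mul_comm k 4, pow_mul]; norm_num
      _ ≤ r ^ k * (r ^ (147 * r ^ 3)) ^ 4 := by gcongr; omega
      _ = r ^ (k + 147 * r ^ 3 * 4) := by rw [← pow_mul, ← pow_add]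
      _ ≤ _ := Nat.pow_le_pow_right r0 (by omega)
  refine ⟨(n * T) ^ k * L, bN, fun f s D hs hf => ?_⟩
  have Qr : (1 : ℝ) ≤ (Q : ℝ) ^ r := one_le_pow₀ (by exact_mod_cast Q0)
  have n0 : (0 : ℝ) ≤ n := by positivity
  have key := main_bound (n := n) (fun i => (i + 1) * F + 1) T Q (1 + k * (Q * (T + 2))) (2 ^ n)
    (r ^ 3 - 1) r k L (1 / ((n + 2) * (Q : ℝ) ^ r)) W (by positivity)
    (one_div_le_one_div_of_le two_pos ((by linarith : (2 : ℝ) ≤ n + 2).trans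
      (le_mul_of_one_le_right (by positivity) Qr)))
    ((by omega : n ≤ n + 2).trans (hQ ▸ Nat.self_le_factorial _)) T0 (by omega)
    (by calc 2 = 2 ^ 1 := rfl
          _ ≤ 2 ^ n := Nat.pow_le_pow_right (by norm_num) (by omega))
    (fun i => by
      have := two_pow_le_fact n
      rw [← hF] at this
      exact this.trans ((Nat.le_mul_of_pos_left F (Nat.succ_pos i)).trans (Nat.le_succ _)))
    (fun i => by
      have : (i + 1) * F ≤ (n + 1) * F := Nat.mul_le_mul_right _ (by omega)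
      rw [hQF, show (n + 2) * F = (n + 1) * F + F by ring]
      exact add_le_add this F0)
    (fun i j hij => by
      have aux : ∀ a b : ℕ, a < b → b ≤ n → Nat.Coprime ((a + 1) * F + 1) ((b + 1) * F + 1) := by
        intro a b hab hb
        exact Nat.coprime_mul_succ (hF ▸ Nat.dvd_factorial (by omega) (by omega))
      rcases lt_or_gt_of_ne hij with h | h
      · exact aux i j h (by omega)
      · exact (aux j i h (by omega)).symm)
    (bB.trans_lt bB2)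
    (by
      rw [mul_one_div, div_mul_eq_mul_div, div_lt_one (by positivity)]
      gcongr; linarith)
    r0
    (by
      have h1 : 1 ≤ Q ^ (2 * r) := Nat.one_le_pow _ _ Q0
      have h2 : 3 ≤ W := by
        rw [hW]
        calc 3 ≤ 2 ^ 2 * 1 := by norm_num
          _ ≤ _ := Nat.mul_le_mul (Nat.pow_le_pow_left (Nat.le_add_left _ _) _) h1
      exact_mod_cast h2)
    (by
      rw [hW]; push_cast
      rw [pow_mul']
      field_simp
      norm_num)
    le_rfl hL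
    (by
      have h1 : W * k * r ^ k ≤ T * Q ^ 2 := by
        rw [hT]; exact Nat.le_mul_of_pos_right _ (by positivity)
      exact_mod_cast h1)
    f s D hs hf
  set den : ℝ := 4 ^ k * (4 * L * (L + 1) * (Q : ℝ) ^ 2) with hden
  have bD' : den ^ 4 ≤ (r : ℝ) ^ (3 * k) := by rw [hden]; exact_mod_cast bD
  have den0 : 0 ≤ den := by positivity
  have rk : (0 : ℝ) < (r : ℝ) ^ k := by positivity
  have D0 : 0 ≤ D := by
    by_contra h
    have := mul_nonpos_of_nonpos_of_nonneg (not_le.1 h).le den0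
    linarith
  refine ⟨D0, ?_⟩
  rw [← hk]
  have h1 : ((r : ℝ) ^ k) ^ 4 ≤ (D * den) ^ 4 := by gcongr
  have h2 : (r : ℝ) ^ (3 * k) * (r : ℝ) ^ k ≤ (r : ℝ) ^ (3 * k) * D ^ 4 := by
    calc (r : ℝ) ^ (3 * k) * (r : ℝ) ^ k = ((r : ℝ) ^ k) ^ 4 := by ring
      _ ≤ (D * den) ^ 4 := h1
      _ = den ^ 4 * D ^ 4 := by ring
      _ ≤ _ := by gcongr
  exact le_of_mul_le_mul_left h2 (by positivity)

theorem exists_param (r₀ d : ℕ) (h0 : 0 < r₀) (hd : r₀ ^ (76 * r₀ ^ 8) ≤ d) :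
    ∃ r, r₀ ≤ r ∧ r ^ (76 * r ^ 8) ≤ d ∧ d < (r + 1) ^ (76 * (r + 1) ^ 8) := by
  by_contra h
  push Not at h
  have : ∀ r, r₀ ≤ r → r ^ (76 * r ^ 8) ≤ d := by
    intro r hr
    induction r, hr using Nat.le_induction with
    | base => exact hd
    | succ r hr ih => exact h r hr ih
  have h1 := this (d + r₀) (by omega)
  have h2 : d + r₀ ≤ (d + r₀) ^ (76 * (d + r₀) ^ 8) := Nat.le_self_pow (by positivity) _
  have h3 := this (d + r₀ + 1) (by omega)
  have h4 : d + r₀ + 1 ≤ (d + r₀ + 1) ^ (76 * (d + r₀ + 1) ^ 8) :=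
    Nat.le_self_pow (by positivity) _
  omega

theorem log_bound (r d : ℕ) (hr : 300 ≤ r) (h1 : r ≤ d)
    (h2 : d < (r + 1) ^ (76 * (r + 1) ^ 8)) :
    Real.sqrt (Real.log d * Real.log (Real.log d)) ≤ 700 * ((r : ℝ) ^ 4 * Real.log r) := by
  have hr' : (300 : ℝ) ≤ r := by exact_mod_cast hr
  have hd' : (r : ℝ) ≤ d := by exact_mod_cast h1
  have d0 : (0 : ℝ) < d := by linarith
  have e5 : 0 ≤ Real.log (r + 1) := Real.log_nonneg (by linarith)
  have e4 : ((r : ℝ) + 1) ^ 8 ≤ (2 * r) ^ 8 := by gcongr; linarith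
  have lr : 0 < Real.log r := Real.log_pos (by linarith)
  have ld : 0 < Real.log d := Real.log_pos (by linarith)
  have s1 : (r : ℝ) + 1 ≤ r ^ 2 := by clear * - hr'; nlinarith
  have s2 : (38912 : ℝ) ≤ r ^ 2 := by clear * - hr'; nlinarith
  have a1 : Real.log d ≤ 38912 * (r ^ 8 * Real.log r) := by
    have e1 : (d : ℝ) ≤ ((r : ℝ) + 1) ^ (76 * (r + 1) ^ 8) := by exact_mod_cast h2.le
    have e2 := Real.log_le_log d0 e1
    rw [Real.log_pow] at e2
    push_cast at e2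
    have e3 : Real.log (r + 1) ≤ 2 * Real.log r := by
      have := Real.log_le_log (by positivity) s1
      rw [Real.log_pow] at this
      exact_mod_cast this
    calc Real.log d ≤ 76 * ((r : ℝ) + 1) ^ 8 * Real.log (r + 1) := e2
      _ ≤ 76 * (2 * r) ^ 8 * (2 * Real.log r) := by gcongr
      _ = _ := by ring
  have a2 : Real.log (Real.log d) ≤ 11 * Real.log r := by
    have e1 : Real.log r ≤ r := (Real.log_le_sub_one_of_pos (by linarith)).trans (by linarith)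
    have e2 : Real.log d ≤ (r : ℝ) ^ 11 := by
      calc Real.log d ≤ 38912 * (r ^ 8 * Real.log r) := a1
        _ ≤ r ^ 2 * (r ^ 8 * r) := by gcongr
        _ = _ := by ring
    have := Real.log_le_log ld e2
    rw [Real.log_pow] at this
    exact_mod_cast this
  rw [Real.sqrt_le_left (by positivity)]
  calc Real.log d * Real.log (Real.log d) ≤ Real.log d * (11 * Real.log r) := by gcongr
    _ ≤ (38912 * (r ^ 8 * Real.log r)) * (11 * Real.log r) := by gcongr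
    _ = 428032 * (r ^ 4 * Real.log r) ^ 2 := by ring
    _ ≤ 490000 * (r ^ 4 * Real.log r) ^ 2 := by gcongr; norm_num
    _ = _ := by ring

end Crest.Agent.R210
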