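import Crest.Agent.R210.Edit
import Crest.Agent.R210.Fourier
import Crest.Agent.R210.Block
import Crest.Agent.R210.Char

/-! The recursive family of words and its four properties. -/

set_option autoImplicit false

namespace Crest.Agent.R210

open Crest.GeometryTopology.EditDistance List

/-- Fixed-length unary code. -/
def code (Q a : ℕ) : List Bool := List.replicate a true ++ false :: List.replicate (Q - a) false

/-- The number of leading ones. -/
def tagOf (σ : List Bool) : ℕ := (σ.takeWhile id).length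

theorem tag_code (Q a : ℕ) (σ : List Bool) : tagOf (code Q a ++ σ) = a := by
  rw [tagOf, code]
  generalize List.replicate (Q - a) false = w
  induction a with
  | zero => simp
  | succ a ih => simp [replicate_succ]

theorem code_length {Q a : ℕ} (h : a ≤ Q) : (code Q a).length = Q + 1 := by
  simp [code]; omega

/-- One level of the construction. -/
structure Lvl (n : ℕ) (A : Type) where
  one : A
  x : Fin (n + 1) → A → List (List Bool)
  N : Fin (n + 1) → (A → ℝ) →ₗ[ℝ] ℝ
  Lf : (A → ℝ) →ₗ[ℝ] ℝ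

variable {n : ℕ} (q : Fin (n + 1) → ℕ) (T Q : ℕ) {A : Type} [AddCommGroup A]

/-- The block with tag `j` in row `t`. -/
def Lvl.blk (D : Lvl n A) (i : Fin (n + 1)) (v : Fin n → A) (t : ℕ) (j : Fin n) :
    List (List Bool) :=
  (D.x (i.succAbove j) (v j + (q i * t) • D.one)).map (code Q j ++ ·)

/-- The next level. -/
noncomputable def Lvl.step (D : Lvl n A) : Lvl n (Fin n → A) where
  one := fun _ => D.one
  x i v := (List.range T).flatMap fun t => row (D.blk q Q i v t)
  N i := LinearMap.proj (q i • fun _ => D.one) +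
    ∑ j : Fin n, (D.N (i.succAbove j)).comp (LinearMap.funLeft ℝ ℝ fun g : A => (Pi.single j g : Fin n → A))
  Lf := ∑ j : Fin n, D.Lf.comp (LinearMap.funLeft ℝ ℝ fun g : A => (Pi.single j g : Fin n → A))

theorem step_N (D : Lvl n A) (i : Fin (n + 1)) (ψ : (Fin n → A) → ℝ) :
    (D.step q T Q).N i ψ = ψ (q i • fun _ => D.one) +
      ∑ j : Fin n, D.N (i.succAbove j) (fun g => ψ (Pi.single j g)) := by
  simp only [Lvl.step, LinearMap.add_apply, LinearMap.proj_apply, LinearMap.sum_apply,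
    LinearMap.comp_apply]
  rfl

theorem step_Lf (D : Lvl n A) (ψ : (Fin n → A) → ℝ) :
    (D.step q T Q).Lf ψ = ∑ j : Fin n, D.Lf (fun g => ψ (Pi.single j g)) := by
  simp only [Lvl.step, LinearMap.sum_apply, LinearMap.comp_apply]
  rfl

theorem step_x (D : Lvl n A) (i : Fin (n + 1)) (v : Fin n → A) :
    (D.step q T Q).x i v = (List.range T).flatMap fun t => row (D.blk q Q i v t) := rfl

/-- Lengths. -/
structure Len (k : ℕ) (D : Lvl n A) : Prop where
  len : ∀ i v, (D.x i v).length = (n * T) ^ k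
  slen : ∀ i v, ∀ σ ∈ D.x i v, σ.length = (k + 1) * (Q + 1)

/-- Far pairs. -/
def Far (k B : ℕ) (D : Lvl n A) : Prop :=
  ∀ i v (δ : ℤ), ¬ (q i : ℤ) ∣ δ → |δ| + k * (Q * (T + 2)) ≤ B → ∀ s, s <+ D.x i v →
    s <+ D.x i (v + δ • D.one) → (s.length : ℝ) ≤ ((n * T) ^ k : ℕ) - ((n * T) ^ k : ℕ) / 4 ^ k

/-- Cheap shifts. -/
def Cost (k : ℕ) (D : Lvl n A) : Prop :=
  ∀ i (enc : List Bool → List Bool) (L : ℕ),
    (∀ σ, σ.length = (k + 1) * (Q + 1) → (enc σ).length ≤ L) → ∀ (ψ : A → ℝ) (C : ℝ), 0 ≤ C →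
    (∀ g (e : ℕ), (∀ v, editDist ((D.x i v).flatMap enc) ((D.x i (v + g)).flatMap enc) ≤ e) →
      ψ g ≤ C * e) →
    T * D.N i ψ ≤ C * k * (2 * L * (n * T) ^ k) ∧ D.Lf ψ ≤ C * (2 * L * (n * T) ^ k)

/-- The character inequalities. -/
structure Chr (k r : ℕ) (η : ℝ) (D : Lvl n A) : Prop where
  pos : ∀ (χ : AddChar A ℂ) i, phi χ (q i • D.one) ≤ D.N i (phi χ)
  posL : ∀ χ : AddChar A ℂ, 0 ≤ D.Lf (phi χ)
  act : ∀ (χ : AddChar A ℂ) i (a : ℤ) (ε : ℝ), D.N i (phi χ) ≤ 8 * η ^ 2 →
    χ D.one = ee ((a + ε) / q i) → |ε| ≤ η → ¬ (q i : ℤ) ∣ a →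
    (r : ℝ) ^ k * (2 / (Q : ℝ) ^ 2) ≤ D.Lf (phi χ)

variable {q T Q}

theorem blk_length {k : ℕ} {D : Lvl n A} (h : Len T Q k D) (i : Fin (n + 1)) (v : Fin n → A)
    (t : ℕ) (j : Fin n) : (D.blk q Q i v t j).length = (n * T) ^ k := by
  rw [Lvl.blk, length_map, h.len]

theorem blk_slen {k : ℕ} {D : Lvl n A} (h : Len T Q k D) (hn : n ≤ Q) (i : Fin (n + 1))
    (v : Fin n → A) (t : ℕ) (j : Fin n) :
    ∀ σ ∈ D.blk q Q i v t j, σ.length = (k + 1 + 1) * (Q + 1) := by
  intro σ hσ
  obtain ⟨τ, hτ, rfl⟩ := mem_map.1 hσ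
  rw [length_append, code_length (j.2.le.trans hn), h.slen _ _ τ hτ]
  ring

theorem Len.step {k : ℕ} {D : Lvl n A} (h : Len T Q k D) (hn : n ≤ Q) :
    Len T Q (k + 1) (D.step q T Q) := by
  refine ⟨fun i v => ?_, fun i v σ hσ => ?_⟩
  · show ((List.range T).flatMap fun t => row (D.blk q Q i v t)).length = _
    rw [length_flatMap_const _ _ (n * (n * T) ^ k)
      (fun t _ => row_length _ _ (blk_length h i v t)), length_range]
    ring
  · obtain ⟨t, -, ht⟩ := mem_flatMap.1 hσ
    obtain ⟨j, -, hj⟩ := mem_flatMap.1 ht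
    exact blk_slen h hn i v t j σ hj

theorem Far.step {k B P z : ℕ} {D : Lvl n A} (hl : Len T Q k D) (h : Far q T Q k B D)
    (hT : 0 < T) (hz : 6 * z + 4 ≤ n) (hP : 1 ≤ P) (hq : ∀ i, P ≤ q i) (hqQ : ∀ i, q i ≤ Q)
    (hco : Pairwise fun i j => Nat.Coprime (q i) (q j)) (hB : B < P ^ (z + 1)) :
    Far q T Q (k + 1) B (D.step q T Q) := by
  classical
  intro i v δ hδ hB' s hs hs'
  have hpos : 0 < (n * T) ^ k := pow_pos (Nat.mul_pos (by omega) hT) k
  have tg : ∀ (w : Fin n → A) t j, ∀ a ∈ D.blk q Q i w t j, tagOf a = j := by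
    intro w t j a ha
    obtain ⟨τ, -, rfl⟩ := mem_map.1 ha
    exact tag_code _ _ _
  have := block_bound tagOf (D.blk q Q i v) (D.blk q Q i (v + δ • (D.step q T Q).one)) T
    ((n * T) ^ k) z ((((n * T) ^ k : ℕ) : ℝ) / 4 ^ k) (by positivity) hz hpos (tg _) (tg _)
    (blk_length hl i _) (blk_length hl i _) ?_ s hs hs'
  · refine this.trans (le_of_eq ?_)
    push_cast
    field_simp
    ring
  intro t ht u hu
  set δ' : ℤ := δ + q i * ((u : ℤ) - t) with hδ'
  have h0 : δ' ≠ 0 := by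
    intro h0
    exact hδ ⟨(t : ℤ) - u, by linarith⟩
  have habs : |δ'| ≤ |δ| + Q * (T + 2) := by
    refine (abs_add_le _ _).trans ?_
    rw [abs_mul, Nat.abs_cast]
    have h1 : |(u : ℤ) - t| ≤ T + 2 := by rw [abs_le]; constructor <;> omega
    have h2 : (q i : ℤ) ≤ Q := by exact_mod_cast hqQ i
    gcongr
  have hk : (0 : ℤ) ≤ k * (Q * (T + 2)) := by positivity
  push_cast at hB'
  refine ⟨Finset.univ.filter fun j : Fin n => (q (i.succAbove j) : ℤ) ∣ δ',
    few_divisors (fun j : Fin n => q (i.succAbove j)) P z B hP (fun j => hq _)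
      (fun a b hab => hco (Fin.succAbove_right_injective.ne hab)) hB δ' h0 (by linarith), ?_⟩
  intro j hj s h1 h2
  have hj' : ¬ (q (i.succAbove j) : ℤ) ∣ δ' := by simpa using hj
  obtain ⟨s1, hs1, rfl⟩ := sublist_map_iff.1 h1
  obtain ⟨s2, hs2, e⟩ := sublist_map_iff.1 h2
  have : s1 = s2 := List.map_injective_iff.2 (fun a b hab => append_cancel_left hab) e
  subst this
  rw [length_map]
  refine h _ _ δ' hj' (by linarith) s1 hs1 ?_
  have e2 : v j + (q i * t) • D.one + δ' • D.one =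
      (v + δ • (D.step q T Q).one) j + (q i * u) • D.one := by
    show _ = v j + δ • D.one + (q i * u) • D.one
    rw [hδ', ← natCast_zsmul, ← natCast_zsmul, add_assoc, add_assoc, ← add_smul, ← add_smul]
    congr 2
    push_cast
    ring
  rw [e2]
  exact hs2

theorem length_flatMap_le {α β : Type*} (l : List α) (f : α → List β) (L : ℕ)
    (h : ∀ a ∈ l, (f a).length ≤ L) : (l.flatMap f).length ≤ l.length * L := by
  induction l with
  | nil => simp
  | cons b t ih =>
    rw [flatMap_cons, length_append, length_cons, Nat.succ_mul, add_comm]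
    exact add_le_add (ih fun c hc => h c (by simp [hc])) (h b (by simp))

theorem Cost.step {k : ℕ} {D : Lvl n A} (hl : Len T Q k D) (h : Cost T Q k D) (hn : n ≤ Q) :
    Cost T Q (k + 1) (D.step q T Q) := by
  intro i enc L henc ψ C hC hψ
  have child : ∀ j : Fin n,
      T * D.N (i.succAbove j) (fun g => ψ (Pi.single j g)) ≤
        (C * T) * k * (2 * L * (n * T) ^ k) ∧
      D.Lf (fun g => ψ (Pi.single j g)) ≤ (C * T) * (2 * L * (n * T) ^ k) := by
    intro j
    refine h (i.succAbove j) (fun σ => enc (code Q j ++ σ)) L (fun σ hσ => henc _ ?_) _ _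
      (by positivity) (fun g e he => ?_)
    · rw [length_append, code_length (j.2.le.trans hn), hσ]; ring
    · have := hψ (Pi.single j g) (T * e) (fun v => ?_)
      · push_cast at this; linarith
      rw [step_x, step_x, flatMap_assoc, flatMap_assoc]
      refine (ed_flatMap _ _ _).trans ?_
      refine (List.sum_le_card_nsmul _ e ?_).trans (by simp)
      intro y hy
      obtain ⟨t, -, rfl⟩ := mem_map.1 hy
      rw [row, row, flatMap_assoc, flatMap_assoc]
      refine (ed_flatMap _ _ _).trans ?_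
      rw [← Fin.sum_univ_def, Finset.sum_eq_single j]
      · simp only [Lvl.blk, flatMap_map, Pi.add_apply, Pi.single_eq_same]
        rw [add_right_comm]
        exact he _
      · intro b _ hb
        simp only [Lvl.blk, Pi.add_apply, Pi.single_eq_of_ne hb, add_zero, ed_self]
      · simp
  have root : ψ (q i • fun _ => D.one) ≤ C * ((2 * (n * (n * T) ^ k * L) : ℕ) : ℝ) := by
    refine hψ _ _ fun v => ?_
    rw [step_x, step_x, flatMap_assoc, flatMap_assoc]
    have e : ∀ t, D.blk q Q i (v + q i • fun _ => D.one) t = D.blk q Q i v (t + 1) := by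
      intro t
      funext j
      simp only [Lvl.blk, Pi.add_apply, Pi.smul_apply]
      rw [add_assoc, ← add_smul, mul_add, mul_one, add_comm (q i)]
    simp_rw [e]
    refine (ed_shift (fun t => (row (D.blk q Q i v t)).flatMap enc) T).trans ?_
    have hlen : ∀ t, ((row (D.blk q Q i v t)).flatMap enc).length ≤ n * (n * T) ^ k * L := by
      intro t
      have := length_flatMap_le (row (D.blk q Q i v t)) enc L (fun σ hσ => henc σ (by
        obtain ⟨j, -, hj⟩ := mem_flatMap.1 hσ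
        exact blk_slen hl hn i v t j σ hj))
      rwa [row_length _ _ (blk_length hl i v t)] at this
    have h1 := hlen 0
    have h2 := hlen T
    omega
  constructor
  · rw [step_N, mul_add, Finset.mul_sum]
    have h1 := Finset.sum_le_sum fun j (_ : j ∈ Finset.univ) => (child j).1
    rw [Finset.sum_const, Finset.card_univ, Fintype.card_fin, nsmul_eq_mul] at h1
    have h2 : (T : ℝ) * ψ (q i • fun _ => D.one) ≤
        T * (C * ((2 * (n * (n * T) ^ k * L) : ℕ) : ℝ)) := by gcongr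
    refine (add_le_add h2 h1).trans (le_of_eq ?_)
    push_cast
    ring
  · rw [step_Lf]
    have h1 := Finset.sum_le_sum fun j (_ : j ∈ Finset.univ) => (child j).2
    rw [Finset.sum_const, Finset.card_univ, Fintype.card_fin, nsmul_eq_mul] at h1
    refine h1.trans (le_of_eq ?_)
    ring

theorem phi_nonneg [Finite A] (χ : AddChar A ℂ) (g : A) : 0 ≤ phi χ g := by
  have := Complex.re_le_norm (χ g)
  rw [AddChar.norm_apply] at this
  rw [phi]; linarith

theorem addChar_sum {ι : Type*} (χ : AddChar A ℂ) (s : Finset ι) (f : ι → A) :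
    χ (∑ j ∈ s, f j) = ∏ j ∈ s, χ (f j) := by
  classical
  induction s using Finset.induction_on with
  | empty => simp
  | insert a s ha ih => rw [Finset.sum_insert ha, Finset.prod_insert ha, AddChar.map_add_eq_mul, ih]

theorem small_angle [Finite A] (χ : AddChar A ℂ) (g : A) (p : ℕ) (hp : 0 < p) :
    ∃ (a : ℤ) (ε : ℝ), |ε| ≤ 1 / 2 ∧ χ g = ee ((a + ε) / p) ∧ 8 * ε ^ 2 ≤ phi χ (p • g) := by
  obtain ⟨a, ε, h1, h2, h3⟩ := exists_ee (χ.norm_apply g) p hp
  refine ⟨a, ε, h1, h2, ?_⟩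
  rw [phi, AddChar.map_nsmul_eq_pow, h3]
  exact lower_cos h1

theorem Chr.step [Finite A] {k r : ℕ} {η : ℝ} {D : Lvl n A} (h : Chr q Q k r η D) (hη0 : 0 ≤ η)
    (hq : ∀ i, 0 < q i) (hqQ : ∀ i, q i ≤ Q)
    (hco : Pairwise fun i j => Nat.Coprime (q i) (q j))
    (hη : (n + 1) * η * (Q : ℝ) ^ r < 1) : Chr q Q (k + 1) r η (D.step q T Q) := by
  classical
  have e : ∀ (χ : AddChar (Fin n → A) ℂ) (j : Fin n), (fun g => phi χ (Pi.single j g)) =
      phi (χ.compAddMonoidHom (AddMonoidHom.single (fun _ : Fin n => A) j)) := fun χ j => rfl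
  have nn : ∀ (χ : AddChar A ℂ) i, 0 ≤ D.N i (phi χ) :=
    fun χ i => (phi_nonneg χ _).trans (h.pos χ i)
  refine ⟨fun χ i => ?_, fun χ => ?_, fun χ i a ε hN hχ hε ha => ?_⟩
  · rw [step_N]
    simp_rw [e]
    exact le_add_of_nonneg_right (Finset.sum_nonneg fun j _ => nn _ _)
  · rw [step_Lf]
    simp_rw [e]
    exact Finset.sum_nonneg fun j _ => h.posL _
  · rw [step_N] at hN
    rw [step_Lf]
    simp_rw [e] at hN ⊢
    set χ' := fun j : Fin n => χ.compAddMonoidHom (AddMonoidHom.single (fun _ : Fin n => A) j)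
      with hχ'
    have hNj : ∀ j, D.N (i.succAbove j) (phi (χ' j)) ≤ 8 * η ^ 2 := by
      intro j
      have h1 := Finset.single_le_sum (f := fun j => D.N (i.succAbove j) (phi (χ' j)))
        (fun j _ => nn _ _) (Finset.mem_univ j)
      have h2 := phi_nonneg χ (q i • fun _ => D.one)
      linarith
    have hj : ∀ j, ∃ (b : ℤ) (δ : ℝ), |δ| ≤ η ∧ χ' j D.one = ee ((b + δ) / q (i.succAbove j)) := by
      intro j
      obtain ⟨b, δ, -, h2, h3⟩ := small_angle (χ' j) D.one _ (hq (i.succAbove j))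
      refine ⟨b, δ, ?_, h2⟩
      have := (h3.trans (h.pos _ _)).trans (hNj j)
      exact abs_le_of_sq_le_sq' (by linarith) hη0 |> abs_le.2
    choose b δ hδ hb using hj
    have hprod : ee ((a + ε) / q i) = ee (∑ j, (b j + δ j) / q (i.succAbove j)) := by
      rw [← hχ, ee_sum, ← Finset.univ_sum_single (D.step q T Q).one, addChar_sum]
      exact Finset.prod_congr rfl fun j _ => hb j
    obtain ⟨m, hm⟩ := ee_eq hprod
    have hcard := active_card (q i) (fun j => q (i.succAbove j)) Q r η (hq i) (hqQ i)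
      (fun j => hq _) (fun j => hqQ _) (fun j => hco (Fin.succAbove_ne i j).symm) hη a ε b δ hε hδ
      m hm ha
    set S := Finset.univ.filter fun j => ¬ (q (i.succAbove j) : ℤ) ∣ b j with hS
    have h1 : ∑ j ∈ S, D.Lf (phi (χ' j)) ≤ ∑ j, D.Lf (phi (χ' j)) :=
      Finset.sum_le_sum_of_subset_of_nonneg (Finset.subset_univ _) fun j _ _ => h.posL _
    have h2 : S.card • ((r : ℝ) ^ k * (2 / (Q : ℝ) ^ 2)) ≤ ∑ j ∈ S, D.Lf (phi (χ' j)) :=
      Finset.card_nsmul_le_sum _ _ _ fun j hj =>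
        h.act _ _ (b j) (δ j) (hNj j) (hb j) (hδ j) (by simpa [hS] using hj)
    rw [nsmul_eq_mul] at h2
    have h3 : (r : ℝ) ≤ S.card := by exact_mod_cast hcard
    refine le_trans ?_ (h2.trans h1)
    rw [pow_succ', mul_assoc]
    gcongr

end Crest.Agent.R210
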